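import Vale.Agent.P179.H875.Perm1

/-!
# The exchange theorem for an arbitrary module with a permutation basis
(P179, project ALLB, module PERM)
-/

set_option autoImplicit false
set_option linter.unusedSectionVars false

namespace Vale.P179.H875.Perm

open Finset Module

open scoped Classical

section

variable {p : ℕ} [hp : Fact p.Prime] {k : Type*} [Field k] [CharP k p]
  {H : Type*} [Group H] [Finite H] {V : Type*} [AddCommGroup V] [Module k V]
  {Ω : Type*} [Fintype Ω]

/-- the permutation of the index set -/
noncomputable def idxFun (rep : H →* Module.End k V) (b : Basis Ω k V)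
    (hb : ∀ h i, ∃ j, rep h (b i) = b j) (h : H) (i : Ω) : Ω := (hb h i).choose

theorem idxFun_spec (rep : H →* Module.End k V) (b : Basis Ω k V)
    (hb : ∀ h i, ∃ j, rep h (b i) = b j) (h : H) (i : Ω) :
    rep h (b i) = b (idxFun rep b hb h i) := (hb h i).choose_spec

/-- the action on the index set of a permutation basis -/
@[reducible] noncomputable def idxAct (rep : H →* Module.End k V) (b : Basis Ω k V)
    (hb : ∀ h i, ∃ j, rep h (b i) = b j) : MulAction H Ω where
  smul h i := idxFun rep b hb h i
  one_smul i := by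
    apply b.injective
    show b (idxFun rep b hb 1 i) = b i
    rw [← idxFun_spec, map_one, Module.End.one_apply]
  mul_smul g h i := by
    apply b.injective
    show b (idxFun rep b hb (g * h) i) = b (idxFun rep b hb g (idxFun rep b hb h i))
    rw [← idxFun_spec, ← idxFun_spec, ← idxFun_spec, map_mul, Module.End.mul_apply]

theorem rep_idx (rep : H →* Module.End k V) (b : Basis Ω k V)
    (hb : ∀ h i, ∃ j, rep h (b i) = b j) (h : H) (i : Ω) :
    letI := idxAct rep b hb
    rep h (b i) = b (h • i) := idxFun_spec rep b hb h i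

/-- **Exchange theorem**: a permutation basis can be changed, without changing the action on the
index set, into one adapted to a given equivariant idempotent. -/
theorem exchange (hH : IsPGroup p H) (rep : H →* Module.End k V) (b : Basis Ω k V)
    (hb : ∀ h i, ∃ j, rep h (b i) = b j) (π : V →ₗ[k] V) (hπ : ∀ v, π (π v) = π v)
    (hπe : ∀ h v, π (rep h v) = rep h (π v)) :
    ∃ b' : Basis Ω k V, (∀ h i j, rep h (b i) = b j ↔ rep h (b' i) = b' j) ∧
      ∀ i, π (b' i) = b' i ∨ π (b' i) = 0 := by
  let _ := idxAct rep b hb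
  have hrep : ∀ h i, rep h (b i) = b (h • i) := rep_idx rep b hb
  let E : V ≃ₗ[k] (Ω → k) := b.equivFun
  have hE : ∀ i, E (b i) = Pi.single i 1 := fun i => by
    funext j
    rw [Basis.equivFun_self, Pi.single_apply]
    simp only [eq_comm]
  have hEs : ∀ i, E.symm (Pi.single i 1) = b i := fun i => by
    rw [← hE, LinearEquiv.symm_apply_apply]
  have hErep : ∀ h v, E (rep h v) = pr k H Ω h (E v) := by
    intro h v
    have h1 : (E.toLinearMap).comp (rep h) = (pr k H Ω h).comp E.toLinearMap := by
      refine b.ext fun i => ?_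
      show E (rep h (b i)) = pr k H Ω h (E (b i))
      rw [hrep, hE, hE, pr_single]
    exact LinearMap.congr_fun h1 v
  let π' : Module.End k (Ω → k) := (E.toLinearMap.comp π).comp E.symm.toLinearMap
  have hπ' : ∀ f, π' f = E (π (E.symm f)) := fun f => rfl
  obtain ⟨c, hc1, hc2, hc3⟩ := adapted hH (Fintype.card Ω) Ω rfl π'
    (fun f => by rw [hπ', hπ', LinearEquiv.symm_apply_apply, hπ])
    (fun h f => by
      have h1 : E.symm (pr k H Ω h f) = rep h (E.symm f) := by
        rw [LinearEquiv.symm_apply_eq, hErep, LinearEquiv.apply_symm_apply]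
      rw [hπ', hπ', h1, hπe, hErep])
  have hspan : Submodule.span k (Set.range c) = ⊤ :=
    hc1.span_eq_top_of_card_eq_finrank' (by rw [Module.finrank_fintype_fun_eq_card])
  let bc : Basis Ω k (Ω → k) := Basis.mk hc1 hspan.ge
  let b' : Basis Ω k V := bc.map E.symm
  have hb' : ∀ i, b' i = E.symm (c i) := by
    intro i
    show (bc.map E.symm) i = _
    rw [Basis.map_apply]
    show E.symm (Basis.mk hc1 hspan.ge i) = _
    rw [Basis.mk_apply]
  have hEb' : ∀ i, E (b' i) = c i := fun i => by rw [hb', LinearEquiv.apply_symm_apply]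
  have hrep' : ∀ h i, rep h (b' i) = b' (h • i) := by
    intro h i
    apply E.injective
    rw [hErep, hEb', hEb', hc2]
  refine ⟨b', fun h i j => ?_, fun i => ?_⟩
  · rw [hrep, hrep', b.injective.eq_iff, b'.injective.eq_iff]
  · rcases hc3 i with h | h
    · left
      apply E.injective
      rw [hπ', ← hb'] at h
      rw [h, hEb']
    · right
      apply E.injective
      rw [hπ', ← hb'] at h
      rw [h, map_zero]

/-- the part of an adapted basis in the range of `π` is a basis of the range -/
theorem exchange_range (b' : Basis Ω k V) (π : V →ₗ[k] V)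
    (h : ∀ i, π (b' i) = b' i ∨ π (b' i) = 0) :
    LinearMap.range π = Submodule.span k (Set.range fun i : {i : Ω // π (b' i) = b' i} => b' i) := by
  apply le_antisymm
  · rintro _ ⟨v, rfl⟩
    rw [← b'.sum_repr v, map_sum]
    refine Submodule.sum_mem _ fun i _ => ?_
    rw [map_smul]
    rcases h i with h1 | h1
    · rw [h1]
      exact Submodule.smul_mem _ _ (Submodule.subset_span ⟨⟨i, h1⟩, rfl⟩)
    · rw [h1, smul_zero]
      exact Submodule.zero_mem _
  · rw [Submodule.span_le]
    rintro _ ⟨⟨i, hi⟩, rfl⟩
    exact ⟨b' i, hi⟩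

/-- the basis of the range -/
noncomputable def rangeBasis (b' : Basis Ω k V) (π : V →ₗ[k] V)
    (h : ∀ i, π (b' i) = b' i ∨ π (b' i) = 0) :
    Basis {i : Ω // π (b' i) = b' i} k (LinearMap.range π) :=
  (Basis.span (v := fun i : {i : Ω // π (b' i) = b' i} => b' i)
    (b'.linearIndependent.comp _ Subtype.val_injective)).map
      (LinearEquiv.ofEq _ _ (exchange_range b' π h).symm)

theorem rangeBasis_apply (b' : Basis Ω k V) (π : V →ₗ[k] V)
    (h : ∀ i, π (b' i) = b' i ∨ π (b' i) = 0) (i : {i : Ω // π (b' i) = b' i}) :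
    (rangeBasis b' π h i : V) = b' i := by
  rw [rangeBasis, Basis.map_apply, LinearEquiv.coe_ofEq_apply, Basis.span_apply]

end

end Vale.P179.H875.Perm
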