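import Vale.Agent.P179.Allb.Defs
import Vale.Agent.P179.H875.Perm2

/-!
# Counts of fixed basis elements (P179, project ALLB, modules CNTI, CUTC, ESYM)
-/

set_option autoImplicit false
set_option linter.unusedSectionVars false

namespace Vale.P179.H875

open Finset Module Vale.P179.Allb Vale.P179.H875.Perm

open scoped Classical

section

variable {p : ℕ} [hp : Fact p.Prime] {k : Type} [Field k] [CharP k p]
  {D : Type} [CommGroup D] [Finite D] {Λ : Type} [Ring Λ] [Algebra k Λ] (A : PX k D Λ)

include A in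
theorem fdPX : FiniteDimensional k Λ := by
  have := A.fin
  exact Module.Finite.of_basis A.b

theorem u_mul_inv (x : D) : A.u x * A.u x⁻¹ = 1 := by rw [← map_mul, mul_inv_cancel, map_one]

theorem u_inv_mul (x : D) : A.u x⁻¹ * A.u x = 1 := by rw [← map_mul, inv_mul_cancel, map_one]

theorem mem_CA (X : Subgroup D) (a : Λ) : a ∈ A.CA X ↔ ∀ x ∈ X, A.u x * a = a * A.u x := by
  rw [PX.CA, Subalgebra.mem_centralizer_iff]
  constructor
  · intro h x hx
    exact h _ ⟨x, hx, rfl⟩
  · rintro h _ ⟨x, hx, rfl⟩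
    exact h x hx

theorem mem_KA (X : Subgroup D) (a : Λ) :
    a ∈ A.KA X ↔ a ∈ A.CA X ∧ ∀ c ∈ A.CA X, A.t (a * c) = 0 := Iff.rfl

/-- conjugation by `X` -/
noncomputable def conjRep (X : Subgroup D) : X →* Module.End k Λ where
  toFun x := (LinearMap.mulLeft k (A.u x)).comp (LinearMap.mulRight k (A.u (x : D)⁻¹))
  map_one' := by
    refine LinearMap.ext fun a => ?_
    show A.u ((1 : X) : D) * (a * A.u ((1 : X) : D)⁻¹) = a
    rw [Subgroup.coe_one, inv_one, map_one, one_mul, mul_one]
  map_mul' x y := by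
    refine LinearMap.ext fun a => ?_
    show A.u ((x * y : X) : D) * (a * A.u ((x * y : X) : D)⁻¹) =
      A.u (x : D) * ((A.u (y : D) * (a * A.u (y : D)⁻¹)) * A.u (x : D)⁻¹)
    rw [Subgroup.coe_mul, mul_inv_rev, map_mul, map_mul]
    simp only [mul_assoc]

theorem conjRep_apply (X : Subgroup D) (x : X) (a : Λ) :
    conjRep A X x a = A.u (x : D) * (a * A.u (x : D)⁻¹) := rfl

theorem conjRep_eq_iff (X : Subgroup D) (x : X) (a : Λ) :
    conjRep A X x a = a ↔ A.u (x : D) * a = a * A.u (x : D) := by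
  rw [conjRep_apply]
  constructor
  · intro h
    calc A.u (x : D) * a = A.u (x : D) * a * (A.u (x : D)⁻¹ * A.u (x : D)) := by
          rw [u_inv_mul, mul_one]
      _ = A.u (x : D) * (a * A.u (x : D)⁻¹) * A.u (x : D) := by simp only [mul_assoc]
      _ = a * A.u (x : D) := by rw [h]
  · intro h
    rw [← mul_assoc, h, mul_assoc, u_mul_inv, mul_one]

theorem mem_CA' (X : Subgroup D) (a : Λ) : a ∈ A.CA X ↔ ∀ x : X, conjRep A X x a = a := by
  rw [mem_CA]
  constructor
  · intro h x
    exact (conjRep_eq_iff A X x a).2 (h x x.2)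
  · intro h x hx
    exact (conjRep_eq_iff A X ⟨x, hx⟩ a).1 (h ⟨x, hx⟩)

theorem conj_stab (X : Subgroup D) (x : X) (i : A.I) : ∃ j, conjRep A X x (A.b i) = A.b j := by
  obtain ⟨j, hj⟩ := A.stab x (x : D)⁻¹ i
  exact ⟨j, by rw [conjRep_apply, ← mul_assoc, hj]⟩

theorem t_conj (X : Subgroup D) (x : X) (a c : Λ) :
    A.t (conjRep A X x a * c) = A.t (a * conjRep A X x⁻¹ c) := by
  rw [conjRep_apply, conjRep_apply, Subgroup.coe_inv, inv_inv]
  calc A.t (A.u (x : D) * (a * A.u (x : D)⁻¹) * c)
      = A.t (A.u (x : D) * (a * A.u (x : D)⁻¹ * c)) := by simp only [mul_assoc]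
    _ = A.t (a * A.u (x : D)⁻¹ * c * A.u (x : D)) := by rw [A.tc]
    _ = _ := by simp only [mul_assoc]

/-- the fixed indices -/
abbrev Fx (X : Subgroup D) : Type := {i : A.I // ∀ x ∈ X, A.u x * A.b i = A.b i * A.u x}

/-- invariance of the coordinates -/
theorem repr_conj (X : Subgroup D) (x : X) (a : Λ) (i : A.I) :
    A.b.repr (conjRep A X x a) (idxFun (conjRep A X) A.b (conj_stab A X) x i) = A.b.repr a i := by
  have := A.fin
  let _ := idxAct (conjRep A X) A.b (conj_stab A X)
  have h1 : ∀ j, idxFun (conjRep A X) A.b (conj_stab A X) x j = x • j := fun j => rfl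
  have h2 : (Finsupp.lapply (x • i)).comp (A.b.repr.toLinearMap.comp (conjRep A X x)) =
      (Finsupp.lapply i : (A.I →₀ k) →ₗ[k] k).comp A.b.repr.toLinearMap := by
    refine A.b.ext fun j => ?_
    show A.b.repr (conjRep A X x (A.b j)) (x • i) = A.b.repr (A.b j) i
    rw [idxFun_spec (conjRep A X) A.b (conj_stab A X), h1, Basis.repr_self, Basis.repr_self,
      Finsupp.single_apply, Finsupp.single_apply]
    simp only [smul_left_cancel_iff]
  exact LinearMap.congr_fun h2 a

include p in
/-- two elements of the centraliser pair to zero as soon as one of them has no fixed coordinates -/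
theorem pair_zero (hD : IsPGroup p D) (X : Subgroup D) (a c : Λ) (ha : a ∈ A.CA X)
    (hc : c ∈ A.CA X) (h0 : ∀ i : Fx A X, A.b.repr a i = 0) : A.t (a * c) = 0 := by
  have := A.fin
  have hX : IsPGroup p X := hD.to_subgroup X
  let _ := idxAct (conjRep A X) A.b (conj_stab A X)
  have hsm : ∀ (x : X) j, A.b (x • j) = conjRep A X x (A.b j) := fun x j =>
    (idxFun_spec (conjRep A X) A.b (conj_stab A X) x j).symm
  have hexp : A.t (a * c) = ∑ i, A.b.repr a i * A.t (A.b i * c) := by
    conv_lhs => rw [← A.b.sum_repr a]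
    rw [Finset.sum_mul, map_sum]
    refine Finset.sum_congr rfl fun i _ => ?_
    rw [smul_mul_assoc, map_smul, smul_eq_mul]
  rw [hexp]
  refine P179C.sum_eq_zero_of_perm p hX (MulAction.toPermHom X A.I) _ ?_ ?_
  · intro x i
    have h1 : A.b.repr a (x • i) = A.b.repr a i := by
      have h2 := repr_conj A X x a i
      rw [(mem_CA' A X a).1 ha x] at h2
      exact h2
    show A.b.repr a (x • i) * A.t (A.b (x • i) * c) = _
    rw [h1, hsm, t_conj, (mem_CA' A X c).1 hc]
  · intro i hi
    have h1 : ∀ x ∈ X, A.u x * A.b i = A.b i * A.u x := by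
      intro x hx
      rw [← conjRep_eq_iff A X ⟨x, hx⟩, ← hsm]
      congr 1
      exact hi ⟨x, hx⟩
    rw [h0 ⟨i, h1⟩, zero_mul]

/-- representation of functionals by the form -/
theorem exists_dual (f : Λ →ₗ[k] k) : ∃ c : Λ, ∀ a, A.t (a * c) = f a := by
  have := A.fin
  have := fdPX A
  let L : Λ →ₗ[k] (Λ →ₗ[k] k) := LinearMap.mk₂ k (fun c a => A.t (a * c))
    (fun c c' a => by rw [mul_add, map_add]) (fun r c a => by rw [mul_smul_comm, map_smul])
    (fun c a a' => by rw [add_mul, map_add]) (fun r c a => by rw [smul_mul_assoc, map_smul])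
  have hL : Function.Injective L := by
    rw [injective_iff_map_eq_zero]
    intro c hc
    refine A.nd c fun y => ?_
    rw [A.tc]
    exact LinearMap.congr_fun hc y
  have hfin : finrank k Λ = finrank k (Λ →ₗ[k] k) := (Subspace.dual_finrank_eq).symm
  have hs := (LinearMap.injective_iff_surjective_of_finrank_eq_finrank hfin).1 hL
  obtain ⟨c, hc⟩ := hs f
  exact ⟨c, fun a => LinearMap.congr_fun hc a⟩

/-- the coordinates at the fixed indices vanish on the radical of the form -/
theorem repr_zero_of_KA (X : Subgroup D) (a : Λ) (ha : a ∈ A.KA X) (i : Fx A X) :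
    A.b.repr a i = 0 := by
  have := A.fin
  obtain ⟨c, hc⟩ := exists_dual A ((Finsupp.lapply (i : A.I)).comp A.b.repr.toLinearMap)
  have hc' : ∀ a, A.t (a * c) = A.b.repr a i := hc
  have hcX : c ∈ A.CA X := by
    rw [mem_CA']
    intro x
    rw [← sub_eq_zero]
    refine A.nd _ fun y => ?_
    have h1 := repr_conj A X x⁻¹ y i
    have h2 : idxFun (conjRep A X) A.b (conj_stab A X) x⁻¹ i = i := by
      apply A.b.injective
      rw [← idxFun_spec]
      rw [conjRep_eq_iff]
      exact i.2 _ (x⁻¹).2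
    rw [h2] at h1
    rw [sub_mul, map_sub, t_conj, A.tc c y, hc', A.tc c, hc', h1, sub_self]
  rw [← hc', ha.2 c hcX]

end

theorem cnti : CNTI := by
  intro p _ k _ _ D _ _ hD Λ _ _ A X
  have := A.fin
  have := fdPX A
  let φ : Subalgebra.toSubmodule (A.CA X) →ₗ[k] (Fx A X → k) :=
    LinearMap.pi fun i => (Finsupp.lapply (i : A.I)).comp
      (A.b.repr.toLinearMap.comp (Submodule.subtype _))
  have hφ : ∀ a i, φ a i = A.b.repr (a : Λ) i := fun a i => rfl
  have hsurj : LinearMap.range φ = ⊤ := by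
    rw [LinearMap.range_eq_top]
    intro f
    refine ⟨⟨∑ i : Fx A X, f i • A.b i, ?_⟩, ?_⟩
    · refine Submodule.sum_mem _ fun i _ => Submodule.smul_mem _ _ ?_
      exact (mem_CA A X _).2 i.2
    · funext i
      rw [hφ]
      simp only [map_sum, map_smul, Basis.repr_self, Finsupp.coe_finsetSum, Finset.sum_apply,
        Finsupp.smul_apply, smul_eq_mul]
      rw [Finset.sum_eq_single i]
      · simp
      · intro j _ hj
        have : (j : A.I) ≠ i := fun h => hj (Subtype.ext h)
        simp [this]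
      · intro h; exact absurd (Finset.mem_univ _) h
  have hker : (LinearMap.ker φ).map (Submodule.subtype _) = A.KA X := by
    ext a
    rw [Submodule.mem_map]
    constructor
    · rintro ⟨⟨a, ha⟩, hk, rfl⟩
      refine (mem_KA A X _).2 ⟨ha, fun c hc => ?_⟩
      exact pair_zero A hD X a c ha hc fun i => congrFun (LinearMap.mem_ker.1 hk) i
    · intro ha
      refine ⟨⟨a, ha.1⟩, ?_, rfl⟩
      rw [LinearMap.mem_ker]
      funext i
      exact repr_zero_of_KA A X a ha i
  have h1 := LinearMap.finrank_range_add_finrank_ker φ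
  rw [hsurj, finrank_top, Module.finrank_fintype_fun_eq_card] at h1
  have h2 : finrank k (A.KA X) = finrank k (LinearMap.ker φ) := by
    rw [← hker]
    exact (Submodule.equivMapOfInjective _ (Submodule.injective_subtype _) _).finrank_eq.symm
  rw [h2, ← h1]
  congr 1
  rw [PX.cnt, Nat.card_eq_fintype_card]

section Cutc

variable {p : ℕ} [hp : Fact p.Prime] {k : Type} [Field k] [CharP k p]
  {D : Type} [CommGroup D] [Finite D] {Λ : Type} [Ring Λ] [Algebra k Λ] (A : PX k D Λ)

include p in
theorem mem_KA_iff (hD : IsPGroup p D) (X : Subgroup D) (a : Λ) (ha : a ∈ A.CA X) :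
    a ∈ A.KA X ↔ ∀ i : Fx A X, A.b.repr a i = 0 :=
  ⟨fun h i => repr_zero_of_KA A X a h i,
    fun h => (mem_KA A X a).2 ⟨ha, fun c hc => pair_zero A hD X a c ha hc h⟩⟩

end Cutc

theorem cutc : CUTC := by
  intro p _ k _ _ D _ _ hD R Λ' _ _ _ _ A A' j v hj hju hv hvu hvt X
  have := A.fin
  have := A'.fin
  have := fdPX A
  have := fdPX A'
  have hvj : ∀ a, v a * j = v a := fun a => by rw [← hv.one, ← hv.mul, mul_one]
  have hjv : ∀ a, j * v a = v a := fun a => by rw [← hv.one, ← hv.mul, one_mul]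
  have hCA : ∀ a ∈ A'.CA X, v a ∈ A.CA X := by
    intro a ha
    rw [mem_CA] at ha ⊢
    intro x hx
    have h1 := congrArg v (ha x hx)
    rw [hv.mul, hv.mul, hvu, mul_assoc, hjv, hju, ← mul_assoc, hvj] at h1
    exact h1
  let Ψ : Subalgebra.toSubmodule (A'.CA X) →ₗ[k] (Fx A X → k) :=
    LinearMap.pi fun i => (Finsupp.lapply (i : A.I)).comp
      (A.b.repr.toLinearMap.comp (v.comp (Submodule.subtype _)))
  have hΨ : ∀ a i, Ψ a i = A.b.repr (v (a : Λ')) i := fun a i => rfl
  have hker : (LinearMap.ker Ψ).map (Submodule.subtype _) ≤ A'.KA X := by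
    rintro _ ⟨⟨a, ha⟩, hk, rfl⟩
    refine (mem_KA A' X _).2 ⟨ha, fun c hc => ?_⟩
    have h1 : v a ∈ A.KA X :=
      (mem_KA_iff A hD X (v a) (hCA a ha)).2 fun i => congrFun (LinearMap.mem_ker.1 hk) i
    show A'.t (a * c) = 0
    rw [hvt, hv.mul]
    exact h1.2 _ (hCA c hc)
  have h1 := LinearMap.finrank_range_add_finrank_ker Ψ
  have h2 : finrank k (LinearMap.ker Ψ) ≤ finrank k (A'.KA X) := by
    rw [(Submodule.equivMapOfInjective _
      (Submodule.injective_subtype (Subalgebra.toSubmodule (A'.CA X)))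
      (LinearMap.ker Ψ)).finrank_eq]
    exact Submodule.finrank_mono hker
  have h3 : finrank k (LinearMap.range Ψ) ≤ A.cnt X := by
    refine (Submodule.finrank_le _).trans ?_
    rw [Module.finrank_fintype_fun_eq_card, PX.cnt, Nat.card_eq_fintype_card]
  have h4 := cnti p k D hD Λ' A' X
  omega

theorem esym : ESYM := by
  intro p _ k _ _ D _ _ τ e _ hT Λ _ _ A X i
  have := A.fin
  have := fdPX A.toPX
  have hni : ∀ (m : ℕ) (x : D), A.n ^ m * A.u x = A.u ((τ ^ m) x) * A.n ^ m := by
    intro m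
    induction m with
    | zero => intro x; simp
    | succ m ih =>
      intro x
      rw [pow_succ, mul_assoc, A.nu, ← mul_assoc, ih, mul_assoc, ← pow_succ]
      rfl
  -- inverse of `n ^ i`
  let m : Λ := A.n ^ i
  let m' : Λ := A.n ^ (i * (e - 1))
  have he : 1 ≤ e := Nat.one_le_iff_ne_zero.2 (NeZero.ne e)
  have hpow : A.n ^ (i * e) = 1 := by rw [mul_comm, pow_mul, A.npow, one_pow]
  have hie : i + i * (e - 1) = i * e := by
    obtain ⟨e', rfl⟩ := Nat.exists_eq_add_of_le he
    simp only [Nat.add_sub_cancel_left]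
    ring
  have hmm' : m * m' = 1 := by
    show A.n ^ i * A.n ^ (i * (e - 1)) = 1
    rw [← pow_add, hie, hpow]
  have hm'm : m' * m = 1 := by
    show A.n ^ (i * (e - 1)) * A.n ^ i = 1
    rw [← pow_add, add_comm, hie, hpow]
  let E : Λ ≃ₗ[k] Λ :=
    { toFun := fun a => m * a * m'
      invFun := fun a => m' * a * m
      map_add' := fun a b => by rw [mul_add, add_mul]
      map_smul' := fun r a => by rw [mul_smul_comm, smul_mul_assoc, RingHom.id_apply]
      left_inv := fun a => by
        show m' * (m * a * m') * m = a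
        calc m' * (m * a * m') * m = (m' * m) * a * (m' * m) := by simp only [mul_assoc]
          _ = a := by rw [hm'm, one_mul, mul_one]
      right_inv := fun a => by
        show m * (m' * a * m) * m' = a
        calc m * (m' * a * m) * m' = (m * m') * a * (m * m') := by simp only [mul_assoc]
          _ = a := by rw [hmm', one_mul, mul_one] }
  have hE : ∀ a, E a = m * a * m' := fun a => rfl
  have hEmul : ∀ a c, E a * E c = E (a * c) := by
    intro a c
    rw [hE, hE, hE]
    calc m * a * m' * (m * c * m') = m * a * (m' * m) * c * m' := by simp only [mul_assoc]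
      _ = m * (a * c) * m' := by rw [hm'm, mul_one]; simp only [mul_assoc]
  have hEt : ∀ a, A.t (E a) = A.t a := by
    intro a
    rw [hE, mul_assoc, A.tc, mul_assoc, hm'm, mul_one]
  have hEu : ∀ x, E (A.u x) = A.u ((τ ^ i) x) := by
    intro x
    rw [hE]
    show A.n ^ i * A.u x * m' = _
    rw [hni, mul_assoc]
    show A.u ((τ ^ i) x) * (m * m') = _
    rw [hmm', mul_one]
  let X' : Subgroup D := X.map ((τ ^ i : MulAut D) : D →* D)
  have hCA : ∀ a, E a ∈ A.CA X' ↔ a ∈ A.CA X := by
    intro a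
    rw [mem_CA, mem_CA]
    constructor
    · intro h x hx
      have h1 := h ((τ ^ i) x) ⟨x, hx, rfl⟩
      rw [← hEu, hEmul, hEmul] at h1
      exact E.injective h1
    · rintro h _ ⟨x, hx, rfl⟩
      show A.u ((τ ^ i) x) * E a = E a * A.u ((τ ^ i) x)
      rw [← hEu, hEmul, hEmul, h x hx]
  have hKA : ∀ a, E a ∈ A.KA X' ↔ a ∈ A.KA X := by
    intro a
    rw [mem_KA, mem_KA, hCA]
    refine and_congr_right fun _ => ?_
    constructor
    · intro h c hc
      have h1 := h (E c) ((hCA c).2 hc)
      rwa [hEmul, hEt] at h1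
    · intro h c hc
      have h1 := h (E.symm c) ((hCA _).1 (by rwa [LinearEquiv.apply_symm_apply]))
      rw [← hEt, ← hEmul, LinearEquiv.apply_symm_apply] at h1
      exact h1
  have h1 : finrank k (Subalgebra.toSubmodule (A.CA X')) =
      finrank k (Subalgebra.toSubmodule (A.CA X)) := by
    have h2 : (Subalgebra.toSubmodule (A.CA X)).map E.toLinearMap =
        Subalgebra.toSubmodule (A.CA X') := by
      ext a
      constructor
      · rintro ⟨c, hc, rfl⟩
        exact (hCA c).2 hc
      · intro ha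
        refine ⟨E.symm a, (hCA _).1 ?_, E.apply_symm_apply a⟩
        rw [LinearEquiv.apply_symm_apply]
        exact ha
    rw [← h2]
    exact LinearEquiv.finrank_map_eq E _
  have h3 : finrank k (A.KA X') = finrank k (A.KA X) := by
    have h2 : (A.KA X).map E.toLinearMap = A.KA X' := by
      ext a
      constructor
      · rintro ⟨c, hc, rfl⟩
        exact (hKA c).2 hc
      · intro ha
        refine ⟨E.symm a, (hKA _).1 ?_, E.apply_symm_apply a⟩
        rw [LinearEquiv.apply_symm_apply]
        exact ha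
    rw [← h2]
    exact LinearEquiv.finrank_map_eq E _
  have h4 := cnti p k D hT.pgr Λ A.toPX X
  have h5 := cnti p k D hT.pgr Λ A.toPX X'
  show A.cnt X' = A.cnt X
  omega

end Vale.P179.H875
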