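import Mathlib

/-!
# The corner ring `f R f` as a `k`-algebra, Fitting's lemma for central elements
(P179, signature project, module S0c)
-/

set_option autoImplicit false

namespace Vale.P179.H875

open Finset

section Corner

variable {k R : Type*} [Field k] [Ring R] [Algebra k R] {e : R} (he : IsIdempotentElem e)

/-- the underlying element -/
def cval (x : he.Corner) : R := x.1

theorem cval_injective : Function.Injective (cval he) := fun _ _ h => Subtype.ext h

@[simp] theorem cval_mul (x y : he.Corner) : cval he (x * y) = cval he x * cval he y := rfl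
@[simp] theorem cval_add (x y : he.Corner) : cval he (x + y) = cval he x + cval he y := rfl
@[simp] theorem cval_sub (x y : he.Corner) : cval he (x - y) = cval he x - cval he y := rfl
@[simp] theorem cval_neg (x : he.Corner) : cval he (-x) = - cval he x := rfl
@[simp] theorem cval_zero : cval he 0 = 0 := rfl
@[simp] theorem cval_one : cval he 1 = e := rfl

theorem left_cval (x : he.Corner) : e * cval he x = cval he x :=
  ((Subsemigroup.mem_corner_iff he).1 x.2).1

theorem cval_right (x : he.Corner) : cval he x * e = cval he x :=
  ((Subsemigroup.mem_corner_iff he).1 x.2).2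

/-- `a ↦ e a e` -/
def cmk (a : R) : he.Corner := ⟨e * a * e, a, rfl⟩

@[simp] theorem cval_cmk (a : R) : cval he (cmk he a) = e * a * e := rfl

theorem cmk_cval (x : he.Corner) : cmk he (cval he x) = x := by
  apply cval_injective he
  rw [cval_cmk, left_cval, cval_right]

/-- scalar multiplication on the corner -/
def csmul (c : k) (x : he.Corner) : he.Corner :=
  ⟨c • x.1, (Subsemigroup.mem_corner_iff he).2
    ⟨by rw [mul_smul_comm]; exact congrArg _ (left_cval he x),
     by rw [smul_mul_assoc]; exact congrArg _ (cval_right he x)⟩⟩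

theorem cval_csmul (c : k) (x : he.Corner) : cval he (csmul he c x) = c • cval he x := rfl

noncomputable instance cornerAlgebra : Algebra k he.Corner where
  smul := csmul he
  algebraMap :=
    { toFun := fun c => csmul he c 1
      map_one' := by apply cval_injective he; rw [cval_csmul, one_smul]
      map_mul' := fun c d => by
        apply cval_injective he
        simp only [cval_csmul, cval_mul, cval_one, smul_mul_smul_comm, he.eq]
      map_zero' := by apply cval_injective he; rw [cval_csmul, zero_smul, cval_zero]
      map_add' := fun c d => by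
        apply cval_injective he
        simp only [cval_csmul, cval_add, add_smul] }
  commutes' c x := by
    apply cval_injective he
    show c • e * cval he x = cval he x * (c • e)
    rw [smul_mul_assoc, mul_smul_comm, left_cval, cval_right]
  smul_def' c x := by
    apply cval_injective he
    show c • cval he x = (c • e) * cval he x
    rw [smul_mul_assoc, left_cval]

@[simp] theorem cval_smul (c : k) (x : he.Corner) : cval he (c • x) = c • cval he x := rfl

/-- the inclusion as a linear map -/
def cvalL : he.Corner →ₗ[k] R where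
  toFun := cval he
  map_add' _ _ := rfl
  map_smul' _ _ := rfl

/-- `a ↦ e a e` as a linear map -/
def cmkL : R →ₗ[k] he.Corner where
  toFun := cmk he
  map_add' a b := by apply cval_injective he; simp [mul_add, add_mul]
  map_smul' c a := by apply cval_injective he; simp

@[simp] theorem cvalL_apply (x : he.Corner) : cvalL (k := k) he x = cval he x := rfl
@[simp] theorem cmkL_apply (a : R) : cmkL (k := k) he a = cmk he a := rfl

instance cornerFinite [FiniteDimensional k R] : FiniteDimensional k he.Corner :=
  FiniteDimensional.of_injective (cvalL (k := k) he) (cval_injective he)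

theorem cval_sum {ι : Type*} (s : Finset ι) (F : ι → he.Corner) :
    cval he (∑ i ∈ s, F i) = ∑ i ∈ s, cval he (F i) := by
  classical
  induction s using Finset.induction_on with
  | empty => simp
  | insert i s hi ih => rw [Finset.sum_insert hi, Finset.sum_insert hi, cval_add, ih]

end Corner

section Fitting

variable (k : Type*) {R : Type*} [Field k] [Ring R] [Algebra k R] [FiniteDimensional k R]

include k in
/-- Fitting's lemma for a central element of a finite-dimensional algebra. -/
theorem fitting_center (z : R) (hz : z ∈ Subring.center R) :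
    ∃ (n : ℕ) (e y : R), e ∈ Subring.center R ∧ y ∈ Subring.center R ∧ IsIdempotentElem e ∧
      z ^ (n + 1) * e = z ^ (n + 1) ∧ z ^ (n + 1) * y = e := by
  let Z := Subalgebra.center k R
  have hfd : FiniteDimensional k Z := inferInstance
  have hart : IsArtinianRing Z := IsArtinianRing.of_finite k Z
  let w : Z := ⟨z, Subalgebra.mem_center_iff.2 (fun b => (Subring.mem_center_iff.1 hz b))⟩
  obtain ⟨n, y, hy⟩ := IsArtinian.exists_pow_succ_smul_dvd w (1 : Z)
  simp only [smul_eq_mul, mul_one] at hy
  have hy' : w ^ (n + 1 + 1) * y = w ^ (n + 1) := by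
    have : w ^ (n + 1 + 1) * y = w * (w ^ (n + 1) * y) := by ring
    rw [this, show w ^ (n + 1) * y = w ^ n from hy]
    ring
  have h1 : ∀ m : ℕ, w ^ (n + 1 + m) * y ^ m = w ^ (n + 1) := by
    intro m
    induction m with
    | zero => simp
    | succ m ih =>
      have : w ^ (n + 1 + (m + 1)) * y ^ (m + 1) = (w ^ (n + 1 + 1) * y) * w ^ m * y ^ m := by
        ring
      rw [this, hy', ← pow_add, ih]
  have h2 := h1 (n + 1)
  refine ⟨n, ((w ^ (n + 1) * y ^ (n + 1) : Z) : R), ((y ^ (n + 1) : Z) : R), ?_, ?_, ?_, ?_, ?_⟩
  · exact Subring.mem_center_iff.2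
      (Subalgebra.mem_center_iff.1 (w ^ (n + 1) * y ^ (n + 1) : Z).2)
  · exact Subring.mem_center_iff.2 (Subalgebra.mem_center_iff.1 (y ^ (n + 1) : Z).2)
  · show ((w ^ (n + 1) * y ^ (n + 1) : Z) : R) * ((w ^ (n + 1) * y ^ (n + 1) : Z) : R) = _
    have h3 : (w ^ (n + 1) * y ^ (n + 1)) * (w ^ (n + 1) * y ^ (n + 1)) =
        w ^ (n + 1) * y ^ (n + 1) := by
      have : (w ^ (n + 1) * y ^ (n + 1)) * (w ^ (n + 1) * y ^ (n + 1)) =
          (w ^ (n + 1 + (n + 1)) * y ^ (n + 1)) * y ^ (n + 1) := by ring
      rw [this, h2]
    exact congrArg Subtype.val h3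
  · have h3 : w ^ (n + 1) * (w ^ (n + 1) * y ^ (n + 1)) = w ^ (n + 1) := by
      rw [← mul_assoc, ← pow_add, h2]
    exact congrArg Subtype.val h3
  · rfl

include k in
/-- In a finite-dimensional algebra without non-trivial central idempotents, every central
element is nilpotent or a unit. -/
theorem central_nilpotent_or_unit
    (hloc : ∀ e : R, e ∈ Subring.center R → IsIdempotentElem e → e = 0 ∨ e = 1)
    (z : R) (hz : z ∈ Subring.center R) : IsNilpotent z ∨ IsUnit z := by
  obtain ⟨n, e, y, he, hy, hid, h1, h2⟩ := fitting_center k z hz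
  rcases hloc e he hid with rfl | rfl
  · left
    exact ⟨n + 1, by rw [← h1, mul_zero]⟩
  · right
    have h3 : z * (z ^ n * y) = 1 := by rw [← mul_assoc, ← pow_succ', h2]
    have h4 : (z ^ n * y) * z = 1 := by rw [Subring.mem_center_iff.1 hz, h3]
    exact ⟨⟨z, z ^ n * y, h3, h4⟩, rfl⟩

/-- A central element of a block with a non-zero value under a multiplicative augmentation is
invertible in the centre of the block. -/
theorem block_inverse (b0 : R) (hb0 : b0 ∈ Subring.center R)
    (hid : IsIdempotentElem b0)
    (hprim : ∀ e : R, e ∈ Subring.center R → IsIdempotentElem e → e * b0 = e → e = 0 ∨ e = b0)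
    (aug : R →ₐ[k] k) (haug : aug b0 = 1) (z : R) (hz : z ∈ Subring.center R)
    (hne : aug z ≠ 0) :
    ∃ z' ∈ Subring.center R, z * z' = b0 ∧ b0 * z' = z' := by
  obtain ⟨n, e, y, he, hy, hide, h1, h2⟩ := fitting_center k (z * b0)
    (Subring.mul_mem _ hz hb0)
  have hzb : (z * b0) * b0 = z * b0 := by rw [mul_assoc, hid.eq]
  have hcb : ∀ x : R, x * b0 = b0 * x := fun x => Subring.mem_center_iff.1 hb0 x
  have heb : e * b0 = e := by
    rw [← h2, pow_succ, mul_assoc, mul_assoc, hcb y, ← mul_assoc, ← mul_assoc, mul_assoc (_ ^ n),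
      hzb]
  rcases hprim e he hide heb with rfl | rfl
  · exfalso
    have h3 : (z * b0) ^ (n + 1) = 0 := by rw [← h1, mul_zero]
    have h4 := congrArg aug h3
    rw [map_pow, map_mul, haug, mul_one, map_zero] at h4
    exact hne (pow_eq_zero_iff (Nat.succ_ne_zero n) |>.1 h4)
  · refine ⟨e * ((z * e) ^ n * y), ?_, ?_, ?_⟩
    · exact Subring.mul_mem _ hb0 (Subring.mul_mem _ (Subring.pow_mem _
        (Subring.mul_mem _ hz hb0) _) hy)
    · rw [← mul_assoc, ← mul_assoc, ← pow_succ', h2]
    · rw [← mul_assoc, hid.eq]

end Fitting

end Vale.P179.H875
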