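import Vale.Agent.P179.H875.S0cHigman
import Vale.Agent.P179.H875.Corner

/-!
# The data `(B, H, ρ, θ, ε, τ)` of the signature project from the idempotent `f` (module S0c)
-/

set_option autoImplicit false
set_option linter.unusedSectionVars false

namespace Vale.P179.H875

open Finset

open scoped Classical

/-- the basis element `g` of the group algebra -/
noncomputable abbrev sg (k : Type*) [Field k] {G : Type*} [Group G] (g : G) : MonoidAlgebra k G :=
  MonoidAlgebra.single g 1

section Basic

variable {k : Type*} [Field k] {G : Type*} [Group G]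

theorem sg_mul (g h : G) : sg k (g * h) = sg k g * sg k h := by
  rw [sg, sg, sg, MonoidAlgebra.single_mul_single, one_mul]

theorem sg_one : sg k (1 : G) = 1 := rfl

theorem sg_mul_inv (g : G) : sg k g * sg k g⁻¹ = 1 := by rw [← sg_mul, mul_inv_cancel, sg_one]

theorem sg_inv_mul (g : G) : sg k g⁻¹ * sg k g = 1 := by rw [← sg_mul, inv_mul_cancel, sg_one]

theorem coeff_sg_mul (x g : G) (a : MonoidAlgebra k G) :
    (sg k x * a).coeff g = a.coeff (x⁻¹ * g) := by
  have h := coeff_bi x 1 g a
  simpa only [← MonoidAlgebra.one_def, mul_one, inv_one] using h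

theorem coeff_mul_sg (y g : G) (a : MonoidAlgebra k G) :
    (a * sg k y).coeff g = a.coeff (g * y⁻¹) := by
  have h := coeff_bi 1 y g a
  simpa only [← MonoidAlgebra.one_def, one_mul, inv_one] using h

variable [Fintype G]

theorem eq_sum_sg (a : MonoidAlgebra k G) : a = ∑ g : G, a.coeff g • sg k g := eq_sum_coeff a

theorem mem_center_of_sg (z : MonoidAlgebra k G) (h : ∀ g : G, sg k g * z = z * sg k g) :
    z ∈ Subring.center (MonoidAlgebra k G) := by
  rw [Subring.mem_center_iff]
  intro a
  rw [eq_sum_sg a, Finset.sum_mul, Finset.mul_sum]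
  refine Finset.sum_congr rfl fun g _ => ?_
  rw [smul_mul_assoc, mul_smul_comm, h]

theorem coeff_mul_one' (a b : MonoidAlgebra k G) :
    (a * b).coeff 1 = ∑ g : G, a.coeff g * b.coeff g⁻¹ := by
  conv_lhs => rw [eq_sum_sg a]
  rw [Finset.sum_mul, MonoidAlgebra.coeff_sum, Finsupp.finsetSum_apply]
  refine Finset.sum_congr rfl fun g _ => ?_
  rw [smul_mul_assoc, MonoidAlgebra.coeff_smul, Finsupp.smul_apply, smul_eq_mul, coeff_sg_mul,
    mul_one]

theorem coeff_mul_comm (a b : MonoidAlgebra k G) : (a * b).coeff 1 = (b * a).coeff 1 := by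
  rw [coeff_mul_one', coeff_mul_one']
  refine Fintype.sum_equiv (Equiv.inv G) _ _ fun g => ?_
  rw [Equiv.inv_apply, inv_inv, mul_comm]

/-- The augmentation. -/
noncomputable def augm (k G : Type*) [Field k] [Group G] : MonoidAlgebra k G →ₐ[k] k :=
  MonoidAlgebra.lift k k G (1 : G →* k)

theorem augm_sg (g : G) : augm k G (sg k g) = 1 := by
  rw [augm, sg, MonoidAlgebra.lift_single]
  simp

theorem augm_apply (a : MonoidAlgebra k G) : augm k G a = ∑ g : G, a.coeff g := by
  conv_lhs => rw [eq_sum_sg a]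
  rw [map_sum]
  refine Finset.sum_congr rfl fun g _ => ?_
  rw [map_smul, augm_sg, smul_eq_mul, mul_one]

theorem resN_eq_sum (N : Subgroup G) (a : MonoidAlgebra k G) :
    resN k N a = ∑ n : N, a.coeff n • sg k (n : G) := by
  ext g
  rw [coeff_resN, MonoidAlgebra.coeff_sum, Finsupp.finsetSum_apply]
  split_ifs with hg
  · rw [Finset.sum_eq_single ⟨g, hg⟩]
    · simp
    · intro n _ hn
      have : (n : G) ≠ g := fun h => hn (Subtype.ext h)
      simp [this]
    · intro h'; exact absurd (Finset.mem_univ _) h'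
  · symm
    refine Finset.sum_eq_zero fun n _ => ?_
    have : (n : G) ≠ g := by
      rintro rfl
      exact hg n.2
    simp [this]

/-- left cosets: summing an `N`-invariant function over shifted representatives -/
theorem sum_coset_shift {V : Type*} [AddCommMonoid V] (N : Subgroup G) [Fintype (G ⧸ N)]
    (F : G → V) (hF : ∀ (g : G), ∀ n ∈ N, F (g * n) = F g) (h : G) :
    ∑ q : G ⧸ N, F (h * q.out) = ∑ q : G ⧸ N, F q.out := by
  have hFq : ∀ g g' : G, (QuotientGroup.mk g : G ⧸ N) = QuotientGroup.mk g' → F g = F g' := by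
    intro g g' hgg
    have h1 : g⁻¹ * g' ∈ N := QuotientGroup.eq.1 hgg
    have h2 := hF g _ h1
    rw [mul_inv_cancel_left] at h2
    exact h2.symm
  refine Fintype.sum_equiv (MulAction.toPerm h : Equiv.Perm (G ⧸ N)) _ _ fun q => ?_
  apply hFq
  rw [MulAction.toPerm_apply, QuotientGroup.out_eq']
  conv_rhs => rw [← QuotientGroup.out_eq' q]
  rfl

end Basic

section Push

variable {k : Type*} [Field k] {G : Type*} [Group G] [Fintype G] {N : Subgroup G}
  {Γ : Type*} [Group Γ]

/-- push forward of the coefficients on `N` -/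
noncomputable def push (k : Type*) [Field k] (q : N →* Γ) :
    MonoidAlgebra k G →ₗ[k] MonoidAlgebra k Γ where
  toFun a := ∑ n : N, a.coeff n • sg k (q n)
  map_add' a b := by
    simp only [MonoidAlgebra.coeff_add, Finsupp.add_apply, add_smul, Finset.sum_add_distrib]
  map_smul' c a := by
    simp only [MonoidAlgebra.coeff_smul, Finsupp.smul_apply, smul_eq_mul, mul_smul,
      RingHom.id_apply, Finset.smul_sum]

theorem push_apply (q : N →* Γ) (a : MonoidAlgebra k G) :
    push k q a = ∑ n : N, a.coeff n • sg k (q n) := rfl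

theorem push_sg_mul (q : N →* Γ) (n : N) (a : MonoidAlgebra k G) :
    push k q (sg k (n : G) * a) = sg k (q n) * push k q a := by
  rw [push_apply, push_apply, Finset.mul_sum]
  refine Fintype.sum_equiv (Equiv.mulLeft n⁻¹) _ _ fun m => ?_
  rw [coeff_sg_mul, mul_smul_comm, ← sg_mul, Equiv.coe_mulLeft, ← map_mul, mul_inv_cancel_left]
  rfl

theorem push_mul_sg (q : N →* Γ) (n : N) (a : MonoidAlgebra k G) :
    push k q (a * sg k (n : G)) = push k q a * sg k (q n) := by
  rw [push_apply, push_apply, Finset.sum_mul]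
  refine Fintype.sum_equiv (Equiv.mulRight n⁻¹) _ _ fun m => ?_
  rw [coeff_mul_sg, smul_mul_assoc, ← sg_mul, Equiv.coe_mulRight, ← map_mul, inv_mul_cancel_right]
  rfl

theorem push_sg (q : N →* Γ) (n : N) : push k q (sg k (n : G)) = sg k (q n) := by
  rw [push_apply, Finset.sum_eq_single n]
  · simp
  · intro m _ hm
    have : (n : G) ≠ m := fun h => hm (Subtype.ext h.symm)
    simp [this]
  · intro h'; exact absurd (Finset.mem_univ _) h'

theorem push_resN (q : N →* Γ) (a : MonoidAlgebra k G) : push k q (resN k N a) = push k q a := by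
  rw [push_apply, push_apply]
  refine Finset.sum_congr rfl fun n _ => ?_
  rw [coeff_resN, if_pos n.2]

theorem sum_comp_card {V : Type*} [AddCommMonoid V] {M : Type*} [Group M] [Fintype M] [Fintype Γ]
    (q : M →* Γ) (hq : Function.Surjective q) (F : Γ → V) :
    ∑ x : M, F (q x) = Nat.card q.ker • ∑ γ : Γ, F γ := by
  have h1 : ∑ x : M, F (q x) = ∑ γ : Γ, ∑ x : M with q x = γ, F (q x) :=
    (Finset.sum_fiberwise _ _ _).symm
  rw [h1, Finset.smul_sum]
  refine Finset.sum_congr rfl fun γ _ => ?_
  rw [Finset.sum_congr rfl (g := fun _ => F γ) (fun x hx => by rw [(Finset.mem_filter.1 hx).2]),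
    Finset.sum_const]
  congr 1
  have h2 := MonoidHom.card_fiber_eq_of_mem_range q (x := γ) (y := 1) (hq γ) (hq 1)
  rw [h2, Nat.card_eq_fintype_card, ← Fintype.card_subtype]
  exact Fintype.card_congr (Equiv.refl _)

end Push

/-- The output of module S0a': the idempotent `f`, the inverse `c` of its restriction to `N`, the
vanishing of the entries. -/
structure CInput (k : Type*) [Field k] {G : Type*} [Group G] [Fintype G] (D N K : Subgroup G)
    (b0 f c : MonoidAlgebra k G) : Prop where
  idem : IsIdempotentElem f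
  b0_mul : b0 * f = f
  aug_f : ∑ g, f.coeff g = 1
  comm : ∀ n ∈ N, MonoidAlgebra.single n 1 * f = f * MonoidAlgebra.single n 1
  K_mul : ∀ o ∈ K, MonoidAlgebra.single o 1 * f = f
  c_comm : ∀ n ∈ N, MonoidAlgebra.single n 1 * c = c * MonoidAlgebra.single n 1
  c_res : resN k N c = c
  c_K : ∀ o ∈ K, MonoidAlgebra.single o 1 * c = c
  c_inv : c * resN k N f = (Nat.card K : k)⁻¹ • ∑ o : K, MonoidAlgebra.single (o : G) 1
  entries : ∀ x ∈ D, ∀ y ∈ D, (x ≠ 1 ∨ y ≠ 1) → ∀ g h : G, x * g = g * y → x * h = h * y →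
    (f * MonoidAlgebra.single g 1 * f -
      c * resN k N (f * MonoidAlgebra.single g 1 * f) * f).coeff h = 0

section Main

variable {k : Type*} [Field k] {G : Type*} [Group G] [Fintype G] {D N K : Subgroup G}
  {b0 f c : MonoidAlgebra k G} {Γ : Type*} [Group Γ]

theorem sg_mul_f_eq (K_mul : ∀ o ∈ K, sg k o * f = f) {q : N →* Γ}
    (hker : ∀ n : N, q n = 1 ↔ (n : G) ∈ K) {n m : N} (h : q n = q m) :
    sg k (n : G) * f = sg k (m : G) * f := by
  have h1 : q (m⁻¹ * n) = 1 := by rw [map_mul, map_inv, h, inv_mul_cancel]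
  have h2 := K_mul _ ((hker _).1 h1)
  have h3 : sg k (n : G) = sg k (m : G) * sg k ((m⁻¹ * n : N) : G) := by
    rw [← sg_mul]
    congr 1
    simp
  rw [h3, mul_assoc, h2]

variable (hI : CInput k D N K b0 f c) (q : N →* Γ) (hq : Function.Surjective q)
  (hker : ∀ n : N, q n = 1 ↔ (n : G) ∈ K)

/-- the corner ring `f k[G] f` -/
abbrev CR (hI : CInput k D N K b0 f c) : Type _ := hI.idem.Corner

include hI in
theorem f_sg_f (n : N) : f * sg k (n : G) * f = sg k (n : G) * f := by
  rw [← hI.comm n n.2, mul_assoc, hI.idem.eq]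

/-- the image of `Γ = N / K` in the units of the corner -/
noncomputable def iotaG : Γ →* CR hI where
  toFun γ := cmk hI.idem (sg k ((Function.surjInv hq γ : N) : G))
  map_one' := by
    apply cval_injective hI.idem
    rw [cval_cmk, f_sg_f hI, sg_mul_f_eq hI.K_mul hker (m := 1) (by
      rw [Function.surjInv_eq hq, map_one]), Subgroup.coe_one, sg_one, one_mul, cval_one]
  map_mul' γ δ := by
    apply cval_injective hI.idem
    rw [cval_cmk, f_sg_f hI, cval_mul, cval_cmk, cval_cmk, f_sg_f hI, f_sg_f hI,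
      sg_mul_f_eq hI.K_mul hker (m := Function.surjInv hq γ * Function.surjInv hq δ) (by
        rw [Function.surjInv_eq hq, map_mul, Function.surjInv_eq hq, Function.surjInv_eq hq]),
      Subgroup.coe_mul, sg_mul, mul_assoc (sg k _) f, ← mul_assoc f, f_sg_f hI, mul_assoc]

theorem cval_iotaG (n : N) : cval hI.idem (iotaG hI q hq hker (q n)) = sg k (n : G) * f := by
  show cval hI.idem (cmk hI.idem (sg k ((Function.surjInv hq (q n) : N) : G))) = _
  rw [cval_cmk, f_sg_f hI]
  exact sg_mul_f_eq hI.K_mul hker (Function.surjInv_eq hq _)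

/-- the algebra homomorphism `k[Γ] → f k[G] f` -/
noncomputable def iota : MonoidAlgebra k Γ →ₐ[k] CR hI :=
  MonoidAlgebra.lift k (CR hI) Γ (iotaG hI q hq hker)

theorem iota_sg (γ : Γ) : iota hI q hq hker (sg k γ) = iotaG hI q hq hker γ := by
  rw [iota, sg, MonoidAlgebra.lift_single, one_smul]

theorem cval_iota_push (a : MonoidAlgebra k G) :
    cval hI.idem (iota hI q hq hker (push k q a)) = resN k N a * f := by
  rw [push_apply, map_sum, cval_sum, resN_eq_sum, Finset.sum_mul]
  refine Finset.sum_congr rfl fun n _ => ?_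
  rw [map_smul, iota_sg, cval_smul, cval_iotaG, smul_mul_assoc]

/-- the bimodule retraction -/
noncomputable def rho : CR hI →ₗ[k] MonoidAlgebra k Γ :=
  (push k q).comp ((LinearMap.mulLeft k c).comp ((resN k N).comp (cvalL (k := k) hI.idem)))

theorem rho_apply (b : CR hI) : rho hI q b = push k q (c * resN k N (cval hI.idem b)) := rfl

include hI in
theorem resN_c_mul (a : MonoidAlgebra k G) : resN k N (c * resN k N a) = c * resN k N a := by
  rw [← hI.c_res, resN_eq_sum N c, Finset.sum_mul, map_sum]
  refine Finset.sum_congr rfl fun n _ => ?_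
  rw [smul_mul_assoc, map_smul, resN_mul_left N n.2, resN_resN]

theorem cval_iota_rho (b : CR hI) :
    cval hI.idem (iota hI q hq hker (rho hI q b)) = c * resN k N (cval hI.idem b) * f := by
  rw [rho_apply, cval_iota_push, resN_c_mul hI]

variable (hK0 : (Nat.card K : k) ≠ 0) (hKN : K ≤ N)

include hker hK0 hKN in
theorem push_eK :
    push k q ((Nat.card K : k)⁻¹ • ∑ o : K, MonoidAlgebra.single (o : G) (1 : k)) = 1 := by
  rw [map_smul, map_sum]
  have h1 : ∀ o : K, push k q (MonoidAlgebra.single (o : G) (1 : k)) = 1 := by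
    intro o
    have h2 := push_sg (k := k) q ⟨o, hKN o.2⟩
    rw [(hker ⟨o, hKN o.2⟩).2 o.2, sg_one] at h2
    exact h2
  rw [Finset.sum_congr rfl fun o _ => h1 o, Finset.sum_const, Finset.card_univ,
    ← Nat.card_eq_fintype_card, ← Nat.cast_smul_eq_nsmul k, inv_smul_smul₀ hK0]

include hI hK0 hKN in
theorem rho_iota (h : MonoidAlgebra k Γ) :
    rho hI q (iota hI q hq hker h) = h := by
  have h0 : ∀ γ : Γ, rho hI q (iota hI q hq hker (sg k γ)) = sg k γ := by
    intro γ
    obtain ⟨n, rfl⟩ := hq γ
    rw [iota_sg, rho_apply, cval_iotaG, resN_mul_left N n.2, ← mul_assoc, ← hI.c_comm n n.2,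
      mul_assoc, hI.c_inv, push_sg_mul, push_eK q hker hK0 hKN, mul_one]
  induction h using MonoidAlgebra.induction_linear with
  | zero => simp
  | add a b ha hb => rw [map_add, map_add, ha, hb]
  | single γ r =>
    have h1 : MonoidAlgebra.single γ r = r • sg k γ := by
      rw [sg, MonoidAlgebra.smul_single, smul_eq_mul, mul_one]
    rw [h1, map_smul, map_smul, h0]

theorem rho_iota_mul (h : MonoidAlgebra k Γ) (b : CR hI) :
    rho hI q (iota hI q hq hker h * b) = h * rho hI q b := by
  have h0 : ∀ γ : Γ, rho hI q (iota hI q hq hker (sg k γ) * b) = sg k γ * rho hI q b := by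
    intro γ
    obtain ⟨n, rfl⟩ := hq γ
    rw [iota_sg, rho_apply, cval_mul, cval_iotaG, mul_assoc, left_cval, resN_mul_left N n.2,
      ← mul_assoc, ← hI.c_comm n n.2, mul_assoc, push_sg_mul, rho_apply]
  induction h using MonoidAlgebra.induction_linear with
  | zero => simp
  | add x y hx hy => rw [map_add, add_mul, map_add, hx, hy, add_mul]
  | single γ r =>
    have h1 : MonoidAlgebra.single γ r = r • sg k γ := by
      rw [sg, MonoidAlgebra.smul_single, smul_eq_mul, mul_one]
    rw [h1, map_smul, smul_mul_assoc, map_smul, h0, smul_mul_assoc]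

theorem rho_mul_iota (h : MonoidAlgebra k Γ) (b : CR hI) :
    rho hI q (b * iota hI q hq hker h) = rho hI q b * h := by
  have h0 : ∀ γ : Γ, rho hI q (b * iota hI q hq hker (sg k γ)) = rho hI q b * sg k γ := by
    intro γ
    obtain ⟨n, rfl⟩ := hq γ
    rw [iota_sg, rho_apply, cval_mul, cval_iotaG, hI.comm n n.2, ← mul_assoc, cval_right,
      resN_mul_right N n.2, ← mul_assoc, push_mul_sg, rho_apply]
  induction h using MonoidAlgebra.induction_linear with
  | zero => simp
  | add x y hx hy => rw [map_add, mul_add, map_add, hx, hy, mul_add]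
  | single γ r =>
    have h1 : MonoidAlgebra.single γ r = r • sg k γ := by
      rw [sg, MonoidAlgebra.smul_single, smul_eq_mul, mul_one]
    rw [h1, map_smul, mul_smul_comm, map_smul, h0, mul_smul_comm]

/-- the projection onto the complement, as an endomorphism of the group algebra -/
noncomputable def phi (f c : MonoidAlgebra k G) (N : Subgroup G) :
    MonoidAlgebra k G →ₗ[k] MonoidAlgebra k G where
  toFun a := f * a * f - c * resN k N (f * a * f) * f
  map_add' a b := by
    have h : f * (a + b) * f = f * a * f + f * b * f := by rw [mul_add, add_mul]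
    rw [h, map_add, mul_add, add_mul]
    abel
  map_smul' r a := by
    have h : f * (r • a) * f = r • (f * a * f) := by rw [mul_smul_comm, smul_mul_assoc]
    rw [h, map_smul, mul_smul_comm, smul_mul_assoc, smul_sub, RingHom.id_apply]

theorem phi_apply (a : MonoidAlgebra k G) :
    phi f c N a = f * a * f - c * resN k N (f * a * f) * f := rfl

theorem assoc_aux {R : Type*} [Semigroup R] (f x a y : R) (h2 : x * f = f * x)
    (h3 : y * f = f * y) : f * (x * a * y) * f = x * (f * a * f) * y := by
  calc f * (x * a * y) * f = (f * x) * a * (y * f) := by simp only [mul_assoc]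
    _ = (x * f) * a * (f * y) := by rw [h2, h3]
    _ = x * (f * a * f) * y := by simp only [mul_assoc]

theorem assoc_aux' {R : Type*} [Semigroup R] (f c x a y : R) (h2 : x * c = c * x)
    (h3 : y * f = f * y) : c * (x * a * y) * f = x * (c * a * f) * y := by
  calc c * (x * a * y) * f = (c * x) * a * (y * f) := by simp only [mul_assoc]
    _ = (x * c) * a * (f * y) := by rw [h2, h3]
    _ = x * (c * a * f) * y := by simp only [mul_assoc]

include hI in
theorem phi_bimod (x : G) (hx : x ∈ N) (y : G) (hy : y ∈ N) (a : MonoidAlgebra k G) :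
    phi f c N (sg k x * a * sg k y) = sg k x * phi f c N a * sg k y := by
  have h1 : f * (sg k x * a * sg k y) * f = sg k x * (f * a * f) * sg k y :=
    assoc_aux _ _ _ _ (hI.comm x hx) (hI.comm y hy)
  have h2 : c * (sg k x * resN k N (f * a * f) * sg k y) * f =
      sg k x * (c * resN k N (f * a * f) * f) * sg k y :=
    assoc_aux' _ _ _ _ _ (hI.c_comm x hx) (hI.comm y hy)
  rw [phi_apply, phi_apply, h1, resN_mul_right N hy, resN_mul_left N hx, h2, mul_sub, sub_mul]

theorem phi_corner (b : CR hI) :
    phi f c N (cval hI.idem b) =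
      cval hI.idem (b - iota hI q hq hker (rho hI q b)) := by
  rw [phi_apply, left_cval, cval_right, cval_sub, cval_iota_rho]

theorem assoc_aux3 {R : Type*} [Semigroup R] (f x t y : R) (h1 : x * f = f * x)
    (h3 : y * f = f * y) (hff : f * f = f) :
    (x * f) * (f * t * f) * (y * f) = f * (x * t * y) * f := by
  calc (x * f) * (f * t * f) * (y * f) = x * (f * f) * t * f * (y * f) := by
        simp only [mul_assoc]
    _ = (x * f) * t * f * (f * y) := by rw [hff, h3]
    _ = (x * f) * t * (f * f) * y := by simp only [mul_assoc]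
    _ = (f * x) * t * f * y := by rw [hff, h1]
    _ = f * x * t * (f * y) := by simp only [mul_assoc]
    _ = f * x * t * (y * f) := by rw [h3]
    _ = f * (x * t * y) * f := by simp only [mul_assoc]

theorem assoc_aux4 {R : Type*} [Semigroup R] (f x b y : R)
    (h3 : y * f = f * y) (hb1 : f * b = b) (hb2 : b * f = b) :
    (x * f) * b * (y * f) = x * b * y := by
  calc (x * f) * b * (y * f) = x * (f * b) * (y * f) := by simp only [mul_assoc]
    _ = x * b * (f * y) := by rw [hb1, h3]
    _ = x * (b * f) * y := by simp only [mul_assoc]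
    _ = x * b * y := by rw [hb2]

include hker hKN in
theorem card_ker : Nat.card q.ker = Nat.card K := by
  have hk : ∀ n : N, n ∈ q.ker ↔ (n : G) ∈ K := fun n => hker n
  exact Nat.card_congr
    { toFun := fun n => ⟨n.1, (hk n.1).1 n.2⟩
      invFun := fun o => ⟨⟨o, hKN o.2⟩, (hk ⟨o, hKN o.2⟩).2 o.2⟩
      left_inv := fun n => rfl
      right_inv := fun o => rfl }

include hKN in
/-- Higman's trace form over `Γ × Γ` in the corner ring. -/
theorem exists_theta [Fintype Γ] (hDN : D ≤ N) (hidx : ((D.subgroupOf N).index : k) ≠ 0) :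
    ∃ θ : CR hI →ₗ[k] CR hI, ∀ b : CR hI,
      ∑ x : Γ, ∑ y : Γ, iotaG hI q hq hker x *
        θ (iotaG hI q hq hker x⁻¹ * b * iotaG hI q hq hker y) * iotaG hI q hq hker y⁻¹ =
        b - iota hI q hq hker (rho hI q b) := by
  obtain ⟨θ₀, hθ₀⟩ := exists_trace_normalizer D N hDN hidx (phi f c N)
    (fun x hx y hy a => phi_bimod hI x hx y hy a) (fun x hx y hy hxy g h hg hh =>
      hI.entries x hx y hy hxy g h hg hh)
  refine ⟨((Nat.card K : k) * (Nat.card K : k)) •
    ((cmkL (k := k) hI.idem).comp (θ₀.comp (cvalL (k := k) hI.idem))), fun b => ?_⟩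
  let F : Γ → Γ → CR hI := fun x y => iotaG hI q hq hker x *
    cmk hI.idem (θ₀ (cval hI.idem (iotaG hI q hq hker x⁻¹ * b * iotaG hI q hq hker y))) *
      iotaG hI q hq hker y⁻¹
  have hF : ∀ n m : N, cval hI.idem (F (q n) (q m)) =
      f * (sg k (n : G) * θ₀ (sg k (n : G)⁻¹ * cval hI.idem b * sg k (m : G)) *
        sg k (m : G)⁻¹) * f := by
    intro n m
    have h1 : cval hI.idem (iotaG hI q hq hker (q n)⁻¹ * b * iotaG hI q hq hker (q m)) =
        sg k (n : G)⁻¹ * cval hI.idem b * sg k (m : G) := by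
      rw [← map_inv, cval_mul, cval_mul, cval_iotaG, cval_iotaG]
      exact assoc_aux4 _ _ _ _ (hI.comm m m.2) (left_cval _ _) (cval_right _ _)
    show cval hI.idem (iotaG hI q hq hker (q n) * cmk hI.idem _ * iotaG hI q hq hker (q m)⁻¹) = _
    rw [h1, ← map_inv, cval_mul, cval_mul, cval_iotaG, cval_iotaG, cval_cmk]
    exact assoc_aux3 _ _ _ _ (hI.comm n n.2) (hI.comm _ (N.inv_mem m.2)) hI.idem.eq
  have h2 : ∑ n : N, ∑ m : N, F (q n) (q m) = b - iota hI q hq hker (rho hI q b) := by
    apply cval_injective hI.idem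
    rw [cval_sum]
    have h3 : ∀ n : N, cval hI.idem (∑ m : N, F (q n) (q m)) =
        f * (∑ m : N, sg k (n : G) * θ₀ (sg k (n : G)⁻¹ * cval hI.idem b * sg k (m : G)) *
        sg k (m : G)⁻¹) * f := by
      intro n
      rw [cval_sum, Finset.mul_sum, Finset.sum_mul]
      exact Finset.sum_congr rfl fun m _ => hF n m
    rw [Finset.sum_congr rfl fun n _ => h3 n, ← Finset.sum_mul, ← Finset.mul_sum, ← hθ₀,
      phi_corner hI q hq hker, left_cval, cval_right]
  have h4 : ∑ n : N, ∑ m : N, F (q n) (q m) =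
      (Nat.card K : ℕ) • (Nat.card K : ℕ) • ∑ x : Γ, ∑ y : Γ, F x y := by
    rw [sum_comp_card q hq (fun x => ∑ m : N, F x (q m)), card_ker q hker hKN]
    congr 1
    rw [Finset.smul_sum]
    refine Finset.sum_congr rfl fun x _ => ?_
    rw [sum_comp_card q hq (fun y => F x y), card_ker q hker hKN]
  rw [← h2, h4, ← Nat.cast_smul_eq_nsmul k, ← Nat.cast_smul_eq_nsmul k, smul_smul,
    Finset.smul_sum]
  refine Finset.sum_congr rfl fun x _ => ?_
  rw [Finset.smul_sum]
  refine Finset.sum_congr rfl fun y _ => ?_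
  show iotaG hI q hq hker x * (((Nat.card K : k) * (Nat.card K : k)) • cmk hI.idem
    (θ₀ (cval hI.idem (iotaG hI q hq hker x⁻¹ * b * iotaG hI q hq hker y)))) *
      iotaG hI q hq hker y⁻¹ = _
  rw [mul_smul_comm, smul_mul_assoc]

end Main

section Sep

variable {k : Type*} [Field k] {G : Type*} [Group G] [Fintype G] {D N K : Subgroup G}
  {b0 f c : MonoidAlgebra k G} {Γ : Type*} [Group Γ]

/-- the relative trace `∑_{g ∈ G/N} g a g⁻¹` -/
noncomputable def trN (N : Subgroup G) (a : MonoidAlgebra k G) : MonoidAlgebra k G :=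
  ∑ q : G ⧸ N, sg k q.out * a * sg k q.out⁻¹

theorem trN_center (N : Subgroup G) (a : MonoidAlgebra k G)
    (ha : ∀ n ∈ N, sg k n * a = a * sg k n) :
    trN N a ∈ Subring.center (MonoidAlgebra k G) := by
  apply mem_center_of_sg
  intro h
  have hF : ∀ g : G, ∀ n ∈ N, sg k (g * n) * a * sg k (g * n)⁻¹ = sg k g * a * sg k g⁻¹ := by
    intro g n hn
    rw [mul_inv_rev, sg_mul, sg_mul, mul_assoc (sg k g), ha n hn]
    calc sg k g * (a * sg k n) * (sg k n⁻¹ * sg k g⁻¹)
        = sg k g * a * (sg k n * sg k n⁻¹) * sg k g⁻¹ := by simp only [mul_assoc]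
      _ = _ := by rw [sg_mul_inv, mul_one]
  have h1 := sum_coset_shift N (fun g => sg k g * a * sg k g⁻¹) hF h
  have h2 : sg k h * trN N a * sg k h⁻¹ = trN N a := by
    rw [trN, Finset.mul_sum, Finset.sum_mul, ← h1]
    refine Finset.sum_congr rfl fun q _ => ?_
    rw [mul_inv_rev, sg_mul, sg_mul]
    simp only [mul_assoc]
  calc sg k h * trN N a = sg k h * trN N a * (sg k h⁻¹ * sg k h) := by
        rw [sg_inv_mul, mul_one]
    _ = (sg k h * trN N a * sg k h⁻¹) * sg k h := by simp only [mul_assoc]
    _ = trN N a * sg k h := by rw [h2]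

theorem augm_trN (N : Subgroup G) (a : MonoidAlgebra k G) :
    augm k G (trN N a) = (N.index : k) * augm k G a := by
  rw [trN, map_sum]
  have h : ∀ q : G ⧸ N, augm k G (sg k q.out * a * sg k q.out⁻¹) = augm k G a := by
    intro q
    rw [map_mul, map_mul, augm_sg, augm_sg, one_mul, mul_one]
  rw [Finset.sum_congr rfl fun q _ => h q, Finset.sum_const, Finset.card_univ,
    nsmul_eq_mul, ← Nat.card_eq_fintype_card]
  rfl

/-- the hypotheses on the block idempotent -/
structure BInput (k : Type*) [Field k] {G : Type*} [Group G] [Fintype G]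
    (b0 : MonoidAlgebra k G) : Prop where
  central : ∀ a : MonoidAlgebra k G, a * b0 = b0 * a
  idem : b0 * b0 = b0
  aug : ∑ g, b0.coeff g = 1
  prim : ∀ e : MonoidAlgebra k G, (∀ a, a * e = e * a) → e * e = e → e * b0 = e →
    e = 0 ∨ e = b0

theorem exists_zinv (hB : BInput k b0) (hI : CInput k D N K b0 f c)
    (hidx : (N.index : k) ≠ 0) :
    ∃ z' : MonoidAlgebra k G, (∀ a, a * z' = z' * a) ∧ trN N f * z' = b0 ∧ b0 * z' = z' := by
  obtain ⟨z', h1, h2, h3⟩ := block_inverse k b0 (Subring.mem_center_iff.2 hB.central) hB.idem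
    (fun e he hid heb => hB.prim e (Subring.mem_center_iff.1 he) hid heb) (augm k G)
    (by rw [augm_apply, hB.aug]) (trN N f) (trN_center N f hI.comm)
    (by rw [augm_trN, augm_apply, hI.aug_f, mul_one]; exact hidx)
  exact ⟨z', Subring.mem_center_iff.1 h1, h2, h3⟩

variable (hI : CInput k D N K b0 f c) (q : N →* Γ) (hq : Function.Surjective q)
  (hker : ∀ n : N, q n = 1 ↔ (n : G) ∈ K)

/-- The separability element of the corner over the image of `k[Γ]`. -/
theorem exists_sep (hB : BInput k b0) (hidx : (N.index : k) ≠ 0) :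
    ∃ s t : G ⧸ N → CR hI, ∑ i, s i * t i = 1 ∧
      ∀ (M : Type) [AddCommGroup M] [Module k M] (β : CR hI →ₗ[k] CR hI →ₗ[k] M),
        (∀ (x y : CR hI) (γ : Γ), β (x * iotaG hI q hq hker γ) y =
          β x (iotaG hI q hq hker γ * y)) →
        ∀ b : CR hI, ∑ i, β (b * s i) (t i) = ∑ i, β (s i) (t i * b) := by
  obtain ⟨z', hz1, hz2, hz3⟩ := exists_zinv hB hI hidx
  refine ⟨fun i => cmk hI.idem (z' * sg k i.out), fun i => cmk hI.idem (sg k i.out⁻¹), ?_, ?_⟩
  · apply cval_injective hI.idem
    rw [cval_sum]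
    have h1 : ∀ i : G ⧸ N, cval hI.idem (cmk hI.idem (z' * sg k i.out) *
        cmk hI.idem (sg k i.out⁻¹)) = f * z' * (sg k i.out * f * sg k i.out⁻¹) * f := by
      intro i
      rw [cval_mul, cval_cmk, cval_cmk]
      calc f * (z' * sg k i.out) * f * (f * sg k i.out⁻¹ * f)
          = f * z' * sg k i.out * (f * f) * sg k i.out⁻¹ * f := by simp only [mul_assoc]
        _ = _ := by rw [hI.idem.eq]; simp only [mul_assoc]
    rw [Finset.sum_congr rfl fun i _ => h1 i, ← Finset.sum_mul, ← Finset.mul_sum, ← trN]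
    rw [mul_assoc f z', ← hz1, hz2, cval_one, hB.central, hI.b0_mul, hI.idem.eq]
  · intro M _ _ β hβ b
    have hb1 : ∀ g : G, b * cmk hI.idem (z' * sg k g) =
        ∑ h : G, (cval hI.idem b).coeff h • cmk hI.idem (z' * sg k (h * g)) := by
      intro g
      apply cval_injective hI.idem
      rw [cval_mul, cval_cmk, cval_sum]
      have h1 : ∀ h : G, cval hI.idem ((cval hI.idem b).coeff h • cmk hI.idem
          (z' * sg k (h * g))) =
          (f * z') * ((cval hI.idem b).coeff h • sg k h) * (sg k g * f) := by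
        intro h
        rw [cval_smul, cval_cmk, sg_mul, mul_smul_comm, smul_mul_assoc]
        simp only [mul_assoc]
      rw [Finset.sum_congr rfl fun h _ => h1 h, ← Finset.sum_mul, ← Finset.mul_sum,
        ← eq_sum_sg]
      calc cval hI.idem b * (f * (z' * sg k g) * f)
          = (cval hI.idem b * f) * z' * (sg k g * f) := by simp only [mul_assoc]
        _ = (f * cval hI.idem b) * z' * (sg k g * f) := by rw [cval_right, left_cval]
        _ = f * (cval hI.idem b * z') * (sg k g * f) := by simp only [mul_assoc]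
        _ = f * (z' * cval hI.idem b) * (sg k g * f) := by rw [hz1]
        _ = _ := by simp only [mul_assoc]
    have hb2 : ∀ g : G, cmk hI.idem (sg k g) * b =
        ∑ h : G, (cval hI.idem b).coeff h • cmk hI.idem (sg k (g * h)) := by
      intro g
      apply cval_injective hI.idem
      rw [cval_mul, cval_cmk, cval_sum]
      have h1 : ∀ h : G, cval hI.idem ((cval hI.idem b).coeff h • cmk hI.idem
          (sg k (g * h))) =
          (f * sg k g) * ((cval hI.idem b).coeff h • sg k h) * f := by
        intro h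
        rw [cval_smul, cval_cmk, sg_mul, mul_smul_comm, smul_mul_assoc]
        simp only [mul_assoc]
      rw [Finset.sum_congr rfl fun h _ => h1 h, ← Finset.sum_mul, ← Finset.mul_sum,
        ← eq_sum_sg]
      calc f * sg k g * f * cval hI.idem b
          = f * sg k g * (f * cval hI.idem b) := by simp only [mul_assoc]
        _ = f * sg k g * (cval hI.idem b * f) := by rw [left_cval, cval_right]
        _ = _ := by simp only [mul_assoc]
    have hN1 : ∀ (g : G) (n : N), cmk hI.idem (z' * sg k (g * n)) =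
        cmk hI.idem (z' * sg k g) * iotaG hI q hq hker (q n) := by
      intro g n
      apply cval_injective hI.idem
      rw [cval_mul, cval_iotaG, cval_cmk, cval_cmk, sg_mul]
      calc f * (z' * (sg k g * sg k (n : G))) * f
          = f * (z' * sg k g) * (sg k (n : G) * f) := by simp only [mul_assoc]
        _ = f * (z' * sg k g) * (f * sg k (n : G) * f) := by rw [f_sg_f hI]
        _ = _ := by simp only [mul_assoc]
    have hN2 : ∀ (g : G) (n : N), iotaG hI q hq hker (q n) * cmk hI.idem (sg k ((n : G)⁻¹ * g)) =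
        cmk hI.idem (sg k g) := by
      intro g n
      apply cval_injective hI.idem
      rw [cval_mul, cval_iotaG, cval_cmk, cval_cmk, sg_mul]
      calc sg k (n : G) * f * (f * (sg k (n : G)⁻¹ * sg k g) * f)
          = sg k (n : G) * (f * f) * sg k (n : G)⁻¹ * sg k g * f := by simp only [mul_assoc]
        _ = f * (sg k (n : G) * sg k (n : G)⁻¹) * sg k g * f := by
            rw [hI.idem.eq, hI.comm n n.2]; simp only [mul_assoc]
        _ = _ := by rw [sg_mul_inv, mul_one]
    let F : G → G → M := fun g h => β (cmk hI.idem (z' * sg k g)) (cmk hI.idem (sg k (g⁻¹ * h)))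
    have hF : ∀ (h g : G), ∀ n ∈ N, F (g * n) h = F g h := by
      intro h g n hn
      show β (cmk hI.idem (z' * sg k (g * n))) (cmk hI.idem (sg k ((g * n)⁻¹ * h))) = _
      rw [hN1 g ⟨n, hn⟩, hβ, mul_inv_rev, mul_assoc n⁻¹, hN2 _ ⟨n, hn⟩]
    have hL : ∀ i : G ⧸ N, β (b * cmk hI.idem (z' * sg k i.out)) (cmk hI.idem (sg k i.out⁻¹)) =
        ∑ h : G, (cval hI.idem b).coeff h • F (h * i.out) h := by
      intro i
      rw [hb1, map_sum, LinearMap.sum_apply]
      refine Finset.sum_congr rfl fun h _ => ?_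
      rw [map_smul, LinearMap.smul_apply]
      show _ = _ • β (cmk hI.idem (z' * sg k (h * i.out)))
        (cmk hI.idem (sg k ((h * i.out)⁻¹ * h)))
      rw [mul_inv_rev, inv_mul_cancel_right]
    have hR : ∀ i : G ⧸ N, β (cmk hI.idem (z' * sg k i.out)) (cmk hI.idem (sg k i.out⁻¹) * b) =
        ∑ h : G, (cval hI.idem b).coeff h • F i.out h := by
      intro i
      rw [hb2, map_sum]
      refine Finset.sum_congr rfl fun h _ => ?_
      rw [map_smul]
    rw [Finset.sum_congr rfl fun i _ => hL i, Finset.sum_congr rfl fun i _ => hR i,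
      Finset.sum_comm, Finset.sum_comm (s := (Finset.univ : Finset (G ⧸ N)))]
    refine Finset.sum_congr rfl fun h _ => ?_
    rw [← Finset.smul_sum, ← Finset.smul_sum]
    congr 1
    exact sum_coset_shift N (fun g => F g h) (hF h) h

/-- coefficient of `1` -/
noncomputable def tau : CR hI →ₗ[k] k where
  toFun b := (cval hI.idem b).coeff 1
  map_add' _ _ := rfl
  map_smul' _ _ := rfl

theorem tau_apply (b : CR hI) : tau hI b = (cval hI.idem b).coeff 1 := rfl

theorem tau_comm (a b : CR hI) : tau hI (a * b) = tau hI (b * a) := coeff_mul_comm _ _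

theorem tau_nondeg (a : CR hI) (h : ∀ b, tau hI (a * b) = 0) : a = 0 := by
  apply cval_injective hI.idem
  rw [cval_zero]
  ext g
  have h1 := h (cmk hI.idem (sg k g⁻¹))
  rw [tau_apply, cval_mul, cval_cmk] at h1
  have h2 : cval hI.idem a * (f * sg k g⁻¹ * f) = (cval hI.idem a * sg k g⁻¹) * f := by
    calc cval hI.idem a * (f * sg k g⁻¹ * f) = (cval hI.idem a * f) * sg k g⁻¹ * f := by
          simp only [mul_assoc]
      _ = _ := by rw [cval_right]
  rw [h2, coeff_mul_comm, ← mul_assoc, left_cval, coeff_mul_sg, inv_inv, one_mul] at h1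
  exact h1

theorem coeff_one_resN_mul (u v : MonoidAlgebra k G) :
    (resN k N u * v).coeff 1 = (u * resN k N v).coeff 1 := by
  rw [coeff_mul_one', coeff_mul_one']
  refine Finset.sum_congr rfl fun g _ => ?_
  rw [coeff_resN, coeff_resN]
  have h : g⁻¹ ∈ N ↔ g ∈ N := N.inv_mem_iff
  simp only [h]
  split_ifs <;> simp

variable (hK0 : (Nat.card K : k) ≠ 0) (hKN : K ≤ N)

include hK0 hKN in
theorem tau_iota_rho (b : CR hI) : tau hI (iota hI q hq hker (rho hI q b)) = tau hI b := by
  rw [tau_apply, tau_apply, cval_iota_rho, ← resN_c_mul hI, coeff_one_resN_mul]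
  have h0 : ∀ a : MonoidAlgebra k G, c * resN k N a = resN k N a * c := by
    intro a
    rw [resN_eq_sum, Finset.mul_sum, Finset.sum_mul]
    refine Finset.sum_congr rfl fun n _ => ?_
    rw [mul_smul_comm, smul_mul_assoc, hI.c_comm n n.2]
  rw [h0, mul_assoc, hI.c_inv, coeff_one_resN_mul]
  have h1 : resN k N ((Nat.card K : k)⁻¹ • ∑ o : K, MonoidAlgebra.single (o : G) (1 : k)) =
      (Nat.card K : k)⁻¹ • ∑ o : K, MonoidAlgebra.single (o : G) (1 : k) := by
    rw [map_smul, map_sum]
    congr 1
    refine Finset.sum_congr rfl fun o _ => ?_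
    exact resN_single N (hKN o.2) 1
  rw [h1, mul_smul_comm, Finset.mul_sum]
  have h2 : ∀ o : K, cval hI.idem b * sg k (o : G) = cval hI.idem b := by
    intro o
    calc cval hI.idem b * sg k (o : G) = (cval hI.idem b * f) * sg k (o : G) := by
          rw [cval_right]
      _ = cval hI.idem b * (sg k (o : G) * f) := by
          rw [mul_assoc, hI.comm o (hKN o.2)]
      _ = cval hI.idem b := by
          rw [hI.K_mul o o.2, cval_right]
  rw [Finset.sum_congr rfl fun o _ => h2 o, Finset.sum_const, Finset.card_univ,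
    ← Nat.card_eq_fintype_card, ← Nat.cast_smul_eq_nsmul k, inv_smul_smul₀ hK0]

/-- The corner has no non-trivial central idempotents. -/
theorem corner_local (hB : BInput k b0) (hidx : (N.index : k) ≠ 0) (e : CR hI)
    (he : e ∈ Subring.center (CR hI)) (hid : IsIdempotentElem e) : e = 0 ∨ e = 1 := by
  obtain ⟨z', hz1, hz2, hz3⟩ := exists_zinv hB hI hidx
  have hcomm : ∀ a : MonoidAlgebra k G, (f * a * f) * cval hI.idem e =
      cval hI.idem e * (f * a * f) := by
    intro a
    have h1 := Subring.mem_center_iff.1 he (cmk hI.idem a)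
    exact congrArg (cval hI.idem) h1
  have heN : ∀ n ∈ N, sg k n * cval hI.idem e = cval hI.idem e * sg k n := by
    intro n hn
    have h1 := hcomm (sg k n)
    have h2 : f * sg k n * f = sg k n * f := f_sg_f hI ⟨n, hn⟩
    rw [h2, mul_assoc, left_cval, hI.comm n hn, ← mul_assoc, cval_right] at h1
    exact h1
  have hTc : ∀ a, a * trN N (cval hI.idem e) = trN N (cval hI.idem e) * a :=
    Subring.mem_center_iff.1 (trN_center N _ heN)
  -- E = z' * Tr e
  let E : MonoidAlgebra k G := z' * trN N (cval hI.idem e)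
  have hEc : ∀ a, a * E = E * a := by
    intro a
    show a * (z' * trN N (cval hI.idem e)) = z' * trN N (cval hI.idem e) * a
    rw [← mul_assoc, hz1, mul_assoc, hTc, mul_assoc]
  have hEf : E * f = cval hI.idem e := by
    show z' * trN N (cval hI.idem e) * f = _
    have h1 : trN N (cval hI.idem e) * f = trN N f * cval hI.idem e := by
      rw [trN, trN, Finset.sum_mul, Finset.sum_mul]
      refine Finset.sum_congr rfl fun i _ => ?_
      have h2 := hcomm (sg k i.out⁻¹)
      calc sg k i.out * cval hI.idem e * sg k i.out⁻¹ * f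
          = sg k i.out * (cval hI.idem e * f) * sg k i.out⁻¹ * f := by rw [cval_right]
        _ = sg k i.out * (cval hI.idem e * (f * sg k i.out⁻¹ * f)) := by
            simp only [mul_assoc]
        _ = sg k i.out * ((f * sg k i.out⁻¹ * f) * cval hI.idem e) := by rw [h2]
        _ = sg k i.out * f * sg k i.out⁻¹ * (f * cval hI.idem e) := by
            simp only [mul_assoc]
        _ = _ := by rw [left_cval]
    rw [mul_assoc, h1, ← mul_assoc, ← hz1, hz2]
    calc b0 * cval hI.idem e = (b0 * f) * cval hI.idem e := by rw [mul_assoc, left_cval]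
      _ = _ := by rw [hI.b0_mul, left_cval]
  have hEb : E * b0 = E := by
    rw [← hEc]
    show b0 * (z' * trN N (cval hI.idem e)) = z' * trN N (cval hI.idem e)
    rw [← mul_assoc, hz3]
  clear_value E
  have hinj : ∀ u : MonoidAlgebra k G, (∀ a, a * u = u * a) → u * b0 = u → u * f = 0 → u = 0 := by
    intro u hu hub huf
    have h1 : u * trN N f = 0 := by
      rw [trN, Finset.mul_sum]
      refine Finset.sum_eq_zero fun i _ => ?_
      calc u * (sg k i.out * f * sg k i.out⁻¹) = (u * sg k i.out) * f * sg k i.out⁻¹ := by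
            simp only [mul_assoc]
        _ = sg k i.out * (u * f) * sg k i.out⁻¹ := by
            rw [← hu]; simp only [mul_assoc]
        _ = 0 := by rw [huf, mul_zero, zero_mul]
    rw [← hub, ← hz2, ← mul_assoc, h1, zero_mul]
  have hidc : cval hI.idem e * cval hI.idem e = cval hI.idem e := congrArg (cval hI.idem) hid.eq
  have hEE : E * E = E := by
    have h1 : E * E - E = 0 := by
      apply hinj
      · intro a
        have h3 : a * (E * E) = E * E * a := by
          rw [← mul_assoc, hEc, mul_assoc, hEc, ← mul_assoc]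
        rw [mul_sub, sub_mul, h3, hEc a]
      · rw [sub_mul, mul_assoc, hEb]
      · rw [sub_mul, mul_assoc, hEf]
        have h2 : E * cval hI.idem e = cval hI.idem e := by
          rw [← left_cval hI.idem e, ← mul_assoc, hEf, left_cval, hidc]
        rw [h2, sub_self]
    exact sub_eq_zero.1 h1
  rcases hB.prim E hEc hEE hEb with h | h
  · left
    apply cval_injective hI.idem
    rw [cval_zero, ← hEf, h, zero_mul]
  · right
    apply cval_injective hI.idem
    rw [cval_one, ← hEf, h, hI.b0_mul]

include hI in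
/-- fullness: the block idempotent lies in `k[G] f k[G]` -/
theorem exists_full (hB : BInput k b0) (hidx : (N.index : k) ≠ 0) :
    ∃ u v : G ⧸ N → MonoidAlgebra k G, ∑ i, u i * f * v i = b0 := by
  obtain ⟨z', hz1, hz2, hz3⟩ := exists_zinv hB hI hidx
  refine ⟨fun i => z' * sg k i.out, fun i => sg k i.out⁻¹, ?_⟩
  rw [← hz2, hz1, trN, Finset.mul_sum]
  refine Finset.sum_congr rfl fun i _ => ?_
  simp only [mul_assoc]

end Sep

end Vale.P179.H875
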