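import Vale.Agent.P179.H875.S0cPack
import Vale.Agent.P179.H531.Fin
import Vale.Agent.P179.Sgn.Final

/-!
# Module S0 of the signature project
-/

set_option autoImplicit false

namespace Vale.P179.H875

open Finset Vale.P179.Sgn Subgroup P179A P179C

open scoped Classical

theorem binput_of_block {k : Type*} [Field k] {G : Type*} [Group G] [Fintype G]
    {b : MonoidAlgebra k G} (hb : P179C.IsBlock b) (hp : P179X.IsPrincipal b) : BInput k b where
  central a := Subalgebra.mem_center_iff.1 hb.1 a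
  idem := hb.2.1
  aug := by
    have h : ∑ᶠ g : G, b.coeff g = 1 := hp
    rwa [finsum_eq_sum_of_fintype] at h
  prim e he hid heb := hb.2.2.2 e (Subalgebra.mem_center_iff.2 he) hid heb

theorem s0 : S0 := by
  intro p _ k _ _ _ G _ _ P e h b hb hpr Γ _ _ q hq hker
  have hD : H531.FreeSyl P := ⟨h.comm, fun u hu hu1 n hn hnu => h.free n hn u hu hu1 hnu⟩
  obtain ⟨⟨u, hu⟩, hu1'⟩ := (Subgroup.ne_bot_iff_exists_ne_one).1 h.ne
  have hu1 : u ≠ 1 := fun h' => hu1' (Subtype.ext h')
  obtain ⟨O, hO, hO0, -⟩ := hD.exists_O hu hu1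
  have hB := binput_of_block hb hpr
  obtain ⟨f, c, hI⟩ := H531.exists_cinput (k := k) hD ⟨u, hu, hu1⟩ hO hB
  have hpO : ∀ n : ℕ, ¬ p ∣ n → (n : k) ≠ 0 := fun n hn => by
    rwa [Ne, CharP.cast_eq_zero_iff k p]
  have hON : O ≤ normalizer ((P : Subgroup G) : Set G) := by
    intro o ho
    exact Subgroup.centralizer_le_normalizer _ ((hO o).1 ho).1
  have hPN : (P : Subgroup G) ≤ normalizer ((P : Subgroup G) : Set G) := Subgroup.le_normalizer
  have hkerO : ∀ n : normalizer ((P : Subgroup G) : Set G), q n = 1 ↔ (n : G) ∈ O := by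
    intro n
    rw [hker, hO]
    refine and_congr_right fun _ => ?_
    rw [Nat.coprime_comm, Nat.Prime.coprime_iff_not_dvd (Fact.out : p.Prime)]
  have hidx0 : ¬ p ∣ (P : Subgroup G).index := P.not_dvd_index
  have hmul := Subgroup.relIndex_mul_index hPN
  have hidx1 : (((P : Subgroup G).subgroupOf
      (normalizer ((P : Subgroup G) : Set G))).index : k) ≠ 0 := by
    apply hpO
    intro hdiv
    apply hidx0
    rw [← hmul]
    exact dvd_mul_of_dvd_left hdiv _
  have hidx2 : ((normalizer ((P : Subgroup G) : Set G)).index : k) ≠ 0 := by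
    apply hpO
    intro hdiv
    apply hidx0
    rw [← hmul]
    exact dvd_mul_of_dvd_right hdiv _
  have hcard : (Fintype.card Γ : k) = 0 := by
    rw [CharP.cast_eq_zero_iff k p]
    have h1 := sum_comp_card (V := ℕ) q hq (fun _ => 1)
    rw [card_ker q hkerO hON] at h1
    simp only [Finset.sum_const, Finset.card_univ, smul_eq_mul, mul_one] at h1
    have h2 : p ∣ Fintype.card (normalizer ((P : Subgroup G) : Set G)) := by
      have h3 : p ∣ orderOf u := by
        obtain ⟨n, hn⟩ := P.isPGroup' ⟨u, hu⟩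
        have hn' : u ^ p ^ n = 1 := congrArg Subtype.val hn
        have h4 := orderOf_dvd_of_pow_eq_one hn'
        obtain ⟨m, -, hm⟩ := (Nat.dvd_prime_pow (Fact.out : p.Prime)).1 h4
        rcases Nat.eq_zero_or_pos m with rfl | hm0
        · rw [pow_zero, orderOf_eq_one_iff] at hm
          exact absurd hm hu1
        · rw [hm]
          exact dvd_pow_self p hm0.ne'
      have h5 : orderOf (⟨u, hPN hu⟩ : normalizer ((P : Subgroup G) : Set G)) = orderOf u := by
        rw [← Subgroup.orderOf_coe]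
      rw [← h5] at h3
      exact h3.trans (orderOf_dvd_card)
    rw [h1] at h2
    rcases (Nat.Prime.dvd_mul (Fact.out : p.Prime)).1 h2 with h6 | h6
    · exact absurd h6 hO0
    · exact h6
  obtain ⟨𝒟, h𝒟⟩ := kdata_exists hI hB q hq hkerO (hpO _ hO0) hON hPN hidx1 hidx2 hcard
  refine ⟨f, CR hI, inferInstance, inferInstance, finiteDimensional_CR hI, nontrivial_CR hI,
    cvalL (k := k) hI.idem, 𝒟, hI.idem.eq, hI.b0_mul, cval_injective hI.idem,
    fun x y => rfl, rfl, fun a ha => ⟨cmk hI.idem a, ?_⟩, h𝒟, zloc hI hB hidx2⟩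
  rw [cvalL_apply, cval_cmk, ha]

end Vale.P179.H875
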