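import Mathlib

/-!
# Permutation modules of `p`-groups in characteristic `p`: the exchange theorem
(P179, project ALLB, module PERM)
-/

set_option autoImplicit false
set_option linter.unusedSectionVars false

namespace Vale.P179.H875.Perm

open Finset

open scoped Classical

universe u v

/-! ### fixed vectors -/

section Fixed

variable {p : ℕ} [hp : Fact p.Prime] {k : Type*} [Field k] [CharP k p]
  {H : Type*} [Group H] [Finite H] {M : Type*} [AddCommGroup M] [Module k M]

/-- A non-zero subspace stable under a `p`-group contains a non-zero fixed vector. -/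
theorem exists_fixed (hH : IsPGroup p H) (ρ : H →* Module.End k M) (W : Submodule k M)
    (hW : ∀ h, ∀ w ∈ W, ρ h w ∈ W) (hne : W ≠ ⊥) : ∃ w ∈ W, w ≠ 0 ∧ ∀ h, ρ h w = w := by
  have : Fintype H := Fintype.ofFinite H
  obtain ⟨v, hvW, hv0⟩ := (Submodule.ne_bot_iff W).1 hne
  let c : ZMod p →+* k := ZMod.castHom (dvd_refl p) k
  let F : (H → ZMod p) →+ M :=
    { toFun := fun f => ∑ h : H, c (f h) • ρ h v
      map_zero' := by simp
      map_add' := fun f g => by
        simp only [Pi.add_apply, map_add, add_smul, Finset.sum_add_distrib] }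
  have hF : ∀ f, F f = ∑ h : H, c (f h) • ρ h v := fun f => rfl
  have hFW : ∀ f, F f ∈ W := fun f => by
    rw [hF]
    exact Submodule.sum_mem _ fun h _ => W.smul_mem _ (hW h v hvW)
  have hFρ : ∀ (g : H) f, ρ g (F f) = F (fun h => f (g⁻¹ * h)) := by
    intro g f
    rw [hF, hF, map_sum]
    refine Fintype.sum_equiv (Equiv.mulLeft g) _ _ fun h => ?_
    rw [Equiv.coe_mulLeft, inv_mul_cancel_left, map_smul, map_mul, Module.End.mul_apply]
  let R : AddSubgroup M := F.range
  have hRfin : Finite R := by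
    have : Finite (H → ZMod p) := inferInstance
    exact Finite.of_surjective F.rangeRestrict F.rangeRestrict_surjective
  let act : MulAction H R :=
    { smul := fun g x => ⟨ρ g x.1, by
        obtain ⟨f, hf⟩ := x.2
        rw [← hf, hFρ]
        exact ⟨_, rfl⟩⟩
      one_smul := fun x => Subtype.ext (by show ρ 1 x.1 = x.1; rw [map_one]; rfl)
      mul_smul := fun g h x => Subtype.ext (by
        show ρ (g * h) x.1 = ρ g (ρ h x.1); rw [map_mul]; rfl) }
  have hsm : ∀ (g : H) (x : R), ((g • x : R) : M) = ρ g x := fun g x => rfl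
  have hdvd : p ∣ Nat.card R := by
    have h1 : Nat.card R ∣ Nat.card (H → ZMod p) :=
      AddSubgroup.card_range_dvd F
    have h2 : Nat.card (H → ZMod p) = p ^ Nat.card H := by
      rw [Nat.card_fun, Nat.card_zmod]
    rw [h2] at h1
    obtain ⟨m, -, hm⟩ := (Nat.dvd_prime_pow hp.out).1 h1
    rcases Nat.eq_zero_or_pos m with rfl | hm0
    · exfalso
      rw [pow_zero, Nat.card_eq_one_iff_unique] at hm
      have hvR : v ∈ R := by
        refine ⟨fun h => if h = 1 then 1 else 0, ?_⟩
        rw [hF, Finset.sum_eq_single 1]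
        · simp
        · intro h _ hh
          simp [hh]
        · intro h; exact absurd (Finset.mem_univ _) h
      have := hm.1
      have h3 : (⟨v, hvR⟩ : R) = 0 := Subsingleton.elim _ _
      exact hv0 (congrArg Subtype.val h3)
    · rw [hm]
      exact dvd_pow_self p hm0.ne'
  have h0 : (0 : R) ∈ MulAction.fixedPoints H R := by
    intro g
    apply Subtype.ext
    rw [hsm]
    simp
  obtain ⟨w, hw, hw0⟩ := hH.exists_fixed_point_of_prime_dvd_card_of_fixed_point R hdvd h0
  refine ⟨w, ?_, ?_, ?_⟩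
  · obtain ⟨f, hf⟩ := w.2
    rw [← hf]
    exact hFW f
  · intro h
    exact hw0 (Subtype.ext h.symm)
  · intro h
    exact congrArg Subtype.val (hw h)

end Fixed

/-! ### the exchange theorem -/

section PermRep

variable (k : Type v) [Field k] (H : Type*) [Group H] (X : Type u) [MulAction H X]

/-- the permutation representation on functions -/
def pr : H →* Module.End k (X → k) where
  toFun h :=
    { toFun := fun f x => f (h⁻¹ • x)
      map_add' := fun _ _ => rfl
      map_smul' := fun _ _ => rfl }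
  map_one' := by
    refine LinearMap.ext fun f => funext fun x => ?_
    show f ((1 : H)⁻¹ • x) = f x
    rw [inv_one, one_smul]
  map_mul' g h := by
    refine LinearMap.ext fun f => funext fun x => ?_
    show f ((g * h)⁻¹ • x) = f (h⁻¹ • g⁻¹ • x)
    rw [mul_inv_rev, mul_smul]

end PermRep

section Exchange

variable {p : ℕ} [hp : Fact p.Prime] {k : Type v} [Field k] [CharP k p]
  {H : Type*} [Group H] [Finite H]

theorem pr_apply {X : Type u} [MulAction H X] (h : H) (f : X → k) (x : X) :
    pr k H X h f x = f (h⁻¹ • x) := rfl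

/-- the endomorphism ring of a transitive permutation module of a `p`-group is local -/
theorem inj_or_inj (hH : IsPGroup p H) {O : Type u} [MulAction H O] [MulAction.IsPretransitive H O]
    (β : Module.End k (O → k)) (hβ : ∀ h f, β (pr k H O h f) = pr k H O h (β f)) :
    Function.Injective β ∨ Function.Injective (1 - β : Module.End k (O → k)) := by
  by_contra hc
  push Not at hc
  obtain ⟨h1, h2⟩ := hc
  have key : ∀ γ : Module.End k (O → k), (∀ h f, γ (pr k H O h f) = pr k H O h (γ f)) →
      ¬ Function.Injective γ → γ (fun _ => 1) = 0 ∧ Nonempty O := by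
    intro γ hγ hinj
    have hker : LinearMap.ker γ ≠ ⊥ := fun h => hinj (LinearMap.ker_eq_bot.1 h)
    obtain ⟨w, hwk, hw0, hw⟩ := exists_fixed hH (pr k H O) (LinearMap.ker γ)
      (fun h w hw => by
        rw [LinearMap.mem_ker] at hw ⊢
        rw [hγ, hw, map_zero]) hker
    have hne : Nonempty O := by
      by_contra hno
      rw [not_nonempty_iff] at hno
      exact hw0 (Subsingleton.elim _ _)
    obtain ⟨o⟩ := hne
    have hconst : w = (w o) • (fun _ : O => (1 : k)) := by
      funext x
      obtain ⟨g, hg⟩ := MulAction.exists_smul_eq H o x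
      have h3 := congrFun (hw g) x
      rw [pr_apply] at h3
      rw [Pi.smul_apply, smul_eq_mul, mul_one, ← h3, ← hg, inv_smul_smul]
    have hwo : w o ≠ 0 := by
      intro h4
      rw [h4, zero_smul] at hconst
      exact hw0 hconst
    refine ⟨?_, ⟨o⟩⟩
    rw [LinearMap.mem_ker, hconst, map_smul] at hwk
    exact (smul_eq_zero.1 hwk).resolve_left hwo
  obtain ⟨h3, ⟨o⟩⟩ := key β hβ h1
  obtain ⟨h4, -⟩ := key (1 - β) (fun h f => by
    rw [LinearMap.sub_apply, LinearMap.sub_apply, hβ, map_sub]; rfl) h2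
  rw [LinearMap.sub_apply, h3, sub_zero] at h4
  have h5 := congrFun h4 o
  exact one_ne_zero h5

/-- extension by zero -/
noncomputable def ext0 {X : Type u} (S : Set X) : (S → k) →ₗ[k] (X → k) where
  toFun f x := if h : x ∈ S then f ⟨x, h⟩ else 0
  map_add' f g := by
    funext x
    by_cases h : x ∈ S <;> simp [h]
  map_smul' a f := by
    funext x
    by_cases h : x ∈ S <;> simp [h]

/-- restriction -/
def res {X : Type u} (S : Set X) : (X → k) →ₗ[k] (S → k) where
  toFun f x := f x.1
  map_add' _ _ := rfl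
  map_smul' _ _ := rfl

theorem ext0_apply {X : Type u} (S : Set X) (f : S → k) (x : X) :
    ext0 S f x = if h : x ∈ S then f ⟨x, h⟩ else 0 := rfl

theorem res_apply {X : Type u} (S : Set X) (f : X → k) (x : S) : res (k := k) S f x = f x.1 := rfl

theorem res_ext0 {X : Type u} (S : Set X) (f : S → k) : res S (ext0 S f) = f := by
  funext x
  rw [res_apply, ext0_apply, dif_pos x.2]

theorem res_ext0' {X : Type u} (S T : Set X) (hST : ∀ x ∈ T, x ∉ S) (f : S → k) :
    res T (ext0 S f) = 0 := by
  funext x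
  rw [res_apply, ext0_apply, dif_neg (hST x x.2)]
  rfl

theorem ext0_res_add {X : Type u} (S : Set X) (f : X → k) :
    ext0 S (res S f) + ext0 Sᶜ (res Sᶜ f) = f := by
  funext x
  rw [Pi.add_apply, ext0_apply, ext0_apply]
  by_cases h : x ∈ S
  · have h' : x ∉ Sᶜ := fun h' => h' h
    rw [dif_pos h, dif_neg h', add_zero, res_apply]
  · have h' : x ∈ Sᶜ := h
    rw [dif_neg h, dif_pos h', zero_add, res_apply]

/-- the action on a stable subset -/
@[reducible] def subAct {X : Type u} [MulAction H X] (S : Set X) (hS : ∀ (h : H), ∀ x ∈ S, h • x ∈ S) :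
    MulAction H S where
  smul h x := ⟨h • x.1, hS h x x.2⟩
  one_smul x := Subtype.ext (one_smul H x.1)
  mul_smul g h x := Subtype.ext (mul_smul g h x.1)

theorem ext0_pr {X : Type u} [MulAction H X] (S : Set X) (hS : ∀ (h : H), ∀ x ∈ S, h • x ∈ S)
    (h : H) (f : S → k) :
    letI := subAct S hS
    ext0 S (pr k H S h f) = pr k H X h (ext0 S f) := by
  let _ := subAct S hS
  funext x
  rw [ext0_apply, pr_apply, ext0_apply]
  by_cases hx : x ∈ S
  · rw [dif_pos hx, dif_pos (hS h⁻¹ x hx)]
    rfl
  · have hx' : h⁻¹ • x ∉ S := by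
      intro h'
      apply hx
      have := hS h _ h'
      rwa [smul_inv_smul] at this
    rw [dif_neg hx, dif_neg hx']

theorem res_pr {X : Type u} [MulAction H X] (S : Set X) (hS : ∀ (h : H), ∀ x ∈ S, h • x ∈ S)
    (h : H) (f : X → k) :
    letI := subAct S hS
    res S (pr k H X h f) = pr k H S h (res S f) := rfl

theorem pr_single {X : Type u} [DecidableEq X] [MulAction H X] (h : H) (x : X) (a : k) :
    pr k H X h (Pi.single x a) = Pi.single (h • x) a := by
  funext y
  rw [pr_apply]
  by_cases hy : y = h • x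
  · rw [hy, inv_smul_smul, Pi.single_eq_same, Pi.single_eq_same]
  · rw [Pi.single_eq_of_ne hy, Pi.single_eq_of_ne]
    intro h'
    apply hy
    rw [← h', smul_inv_smul]

theorem pr_inv_pr {X : Type u} [MulAction H X] (h : H) (f : X → k) :
    pr k H X h⁻¹ (pr k H X h f) = f := by
  funext x
  rw [pr_apply, pr_apply, inv_inv, inv_smul_smul]

/-- one step of the exchange -/
theorem step {X : Type u} [Fintype X] [MulAction H X] (O : Set X)
    (hO : ∀ (h : H), ∀ x ∈ O, h • x ∈ O) (hO' : ∀ (h : H), ∀ x ∈ Oᶜ, h • x ∈ Oᶜ)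
    (π τ : Module.End k (X → k)) (hπ : ∀ f, π (π f) = π f)
    (hπe : ∀ h f, π (pr k H X h f) = pr k H X h (π f))
    (hτe : ∀ h f, τ (pr k H X h f) = pr k H X h (τ f))
    (hπτ : (∀ f, π (τ f) = τ f) ∨ (∀ f, π (τ f) = 0))
    (hinj : Function.Injective fun f : O → k => res O (τ (ext0 O f)))
    (IH : letI := subAct (H := H) Oᶜ hO'
      ∀ π' : Module.End k ((Oᶜ : Set X) → k), (∀ f, π' (π' f) = π' f) →
      (∀ h f, π' (pr k H (Oᶜ : Set X) h f) = pr k H (Oᶜ : Set X) h (π' f)) →
      ∃ c : (Oᶜ : Set X) → ((Oᶜ : Set X) → k), LinearIndependent k c ∧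
        (∀ (h : H) x, pr k H (Oᶜ : Set X) h (c x) = c (h • x)) ∧ ∀ x, π' (c x) = c x ∨ π' (c x) = 0) :
    ∃ c : X → (X → k), LinearIndependent k c ∧
        (∀ (h : H) x, pr k H X h (c x) = c (h • x)) ∧ ∀ x, π (c x) = c x ∨ π (c x) = 0 := by
  let _ := subAct (H := H) Oᶜ hO'
  let _ := subAct (H := H) O hO
  let β : Module.End k (O → k) := (res O).comp (τ.comp (ext0 O))
  have hβ : ∀ f, β f = res O (τ (ext0 O f)) := fun f => rfl
  have hβi : Function.Injective β := hinj
  let βe : (O → k) ≃ₗ[k] (O → k) := LinearEquiv.ofInjectiveEndo β hβi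
  have hβe : ∀ f, βe f = β f := fun f => rfl
  have hβe1 : ∀ f, βe.symm (β f) = f := fun f => by rw [← hβe, LinearEquiv.symm_apply_apply]
  have hβe2 : ∀ f, β (βe.symm f) = f := fun f => by rw [← hβe, LinearEquiv.apply_symm_apply]
  have hβeq : ∀ h f, β (pr k H O h f) = pr k H O h (β f) := by
    intro h f
    rw [hβ, hβ]
    have h1 : ext0 O (pr k H O h f) = pr k H X h (ext0 O f) := ext0_pr O hO h f
    rw [h1, hτe]
    rfl
  have hβes : ∀ h f, βe.symm (pr k H O h f) = pr k H O h (βe.symm f) := by
    intro h f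
    apply hβi
    rw [hβe2, hβeq, hβe2]
  let q : (X → k) →ₗ[k] ((Oᶜ : Set X) → k) :=
    res Oᶜ - (res Oᶜ).comp (τ.comp ((ext0 O).comp (βe.symm.toLinearMap.comp (res O))))
  have hq : ∀ f, q f = res Oᶜ f - res Oᶜ (τ (ext0 O (βe.symm (res O f)))) := fun f => rfl
  have hq1 : ∀ f, q (τ (ext0 O f)) = 0 := by
    intro f
    rw [hq]
    have : res O (τ (ext0 O f)) = β f := rfl
    rw [this, hβe1, sub_self]
  have hq2 : ∀ g, q (ext0 Oᶜ g) = g := by
    intro g
    rw [hq, res_ext0, res_ext0' Oᶜ O (fun x hx hx' => hx' hx), map_zero, map_zero, map_zero,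
      map_zero, sub_zero]
  have hq3 : ∀ m, m - ext0 Oᶜ (q m) = τ (ext0 O (βe.symm (res O m))) := by
    intro m
    have h1 := hβe2 (res O m)
    rw [hβ] at h1
    have h2 := ext0_res_add O (τ (ext0 O (βe.symm (res O m))))
    have h3 := ext0_res_add O m
    rw [h1] at h2
    calc m - ext0 Oᶜ (q m)
        = m - ext0 Oᶜ (res Oᶜ m) + ext0 Oᶜ (res Oᶜ (τ (ext0 O (βe.symm (res O m))))) := by
          rw [hq, map_sub]; abel
      _ = ext0 O (res O m) + ext0 Oᶜ (res Oᶜ (τ (ext0 O (βe.symm (res O m))))) := by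
          rw [← eq_sub_of_add_eq h3]
      _ = _ := h2
  have hqe : ∀ h f, q (pr k H X h f) = pr k H (Oᶜ : Set X) h (q f) := by
    intro h f
    rw [hq, hq, map_sub]
    have h1 : res O (pr k H X h f) = pr k H O h (res O f) := rfl
    have h2 : ∀ g, ext0 O (pr k H O h g) = pr k H X h (ext0 O g) := fun g => ext0_pr O hO h g
    rw [h1, hβes, h2, hτe]
    rfl
  let π' : Module.End k ((Oᶜ : Set X) → k) := q.comp (π.comp (ext0 Oᶜ))
  have hπ' : ∀ g, π' g = q (π (ext0 Oᶜ g)) := fun g => rfl
  have hqπτ : ∀ f, q (π (τ (ext0 O f))) = 0 := by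
    intro f
    rcases hπτ with h | h
    · rw [h, hq1]
    · rw [h, map_zero]
  have hπ'1 : ∀ f, π' (π' f) = π' f := by
    intro f
    have h1 := hq3 (π (ext0 Oᶜ f))
    rw [sub_eq_iff_eq_add, ← hπ'] at h1
    have h2 : ext0 Oᶜ (π' f) = π (ext0 Oᶜ f) - τ (ext0 O (βe.symm (res O (π (ext0 Oᶜ f))))) := by
      rw [eq_sub_iff_add_eq, add_comm]
      exact h1.symm
    rw [hπ' (π' f), h2, map_sub, map_sub, hqπτ, sub_zero, hπ]
    rfl
  have hej : ∀ (h : H) g, ext0 Oᶜ (pr k H (Oᶜ : Set X) h g) = pr k H X h (ext0 Oᶜ g) :=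
    fun h g => ext0_pr Oᶜ hO' h g
  have hπ'2 : ∀ h f, π' (pr k H (Oᶜ : Set X) h f) = pr k H (Oᶜ : Set X) h (π' f) := by
    intro h f
    rw [hπ', hπ', hej, hπe, hqe]
  obtain ⟨c', hc1, hc2, hc3⟩ := IH π' hπ'1 hπ'2
  -- the lift
  let L : ((Oᶜ : Set X) → k) → (X → k) := fun g =>
    if π' g = g then π (ext0 Oᶜ g) else ext0 Oᶜ g - π (ext0 Oᶜ g)
  have hL1 : ∀ x, q (L (c' x)) = c' x := by
    intro x
    show q (if π' (c' x) = c' x then _ else _) = _
    split_ifs with h
    · rw [← hπ', h]
    · have h0 := (hc3 x).resolve_left h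
      rw [map_sub, hq2, ← hπ', h0, sub_zero]
  have hL2 : ∀ x, π (L (c' x)) = L (c' x) ∨ π (L (c' x)) = 0 := by
    intro x
    show π (if π' (c' x) = c' x then _ else _) = _ ∨ _
    by_cases h : π' (c' x) = c' x
    · left
      show _ = (if π' (c' x) = c' x then _ else _)
      rw [if_pos h, hπ]
    · right
      show π (if π' (c' x) = c' x then _ else _) = 0
      rw [if_neg h, map_sub, hπ, sub_self]
  have hL3 : ∀ (h : H) x, pr k H X h (L (c' x)) = L (c' (h • x)) := by
    intro h x
    show pr k H X h (if π' (c' x) = c' x then _ else _) = (if π' (c' (h • x)) = c' (h • x) then _ else _)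
    have h1 : (π' (c' (h • x)) = c' (h • x)) ↔ (π' (c' x) = c' x) := by
      rw [← hc2, hπ'2]
      constructor
      · intro h2
        have h3 := congrArg (pr k H (Oᶜ : Set X) h⁻¹) h2
        rwa [pr_inv_pr, pr_inv_pr] at h3
      · intro h2
        rw [h2]
    by_cases h2 : π' (c' x) = c' x
    · rw [if_pos h2, if_pos (h1.2 h2), ← hc2, hej, hπe]
    · rw [if_neg h2, if_neg (fun h3 => h2 (h1.1 h3)), ← hc2, hej, hπe, map_sub]
  refine ⟨fun x => if hx : x ∈ O then τ (ext0 O (Pi.single ⟨x, hx⟩ 1)) else L (c' ⟨x, hx⟩), ?_, ?_, ?_⟩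
  · rw [Fintype.linearIndependent_iff]
    intro α hα
    have hsplit : ∀ (V : Type _) [AddCommMonoid V] (F : X → V),
        ∑ x, F x = ∑ x : O, F x + ∑ x : (Oᶜ : Set X), F x := by
      intro V _ F
      exact (Fintype.sum_subtype_add_sum_subtype (fun x => x ∈ O) F).symm
    rw [hsplit] at hα
    have h1 : ∑ x : O, α x • (if hx : (x : X) ∈ O then τ (ext0 O (Pi.single ⟨x, hx⟩ 1)) else
        L (c' ⟨x, hx⟩)) = τ (ext0 O (res O α)) := by
      have h2 : ∀ x : O, α x • (if hx : (x : X) ∈ O then τ (ext0 O (Pi.single ⟨x, hx⟩ 1)) else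
          L (c' ⟨x, hx⟩)) = τ (ext0 O (α x • Pi.single x 1)) := by
        intro x
        rw [dif_pos x.2, map_smul, map_smul]
      rw [Finset.sum_congr rfl fun x _ => h2 x, ← map_sum, ← map_sum]
      congr 2
      funext y
      rw [Finset.sum_apply, Finset.sum_eq_single y]
      · simp [res_apply]
      · intro z _ hz
        simp [hz.symm]
      · intro h'; exact absurd (Finset.mem_univ _) h'
    have h3 : ∑ x : (Oᶜ : Set X), α x • (if hx : (x : X) ∈ O then
        τ (ext0 O (Pi.single ⟨x, hx⟩ 1)) else L (c' ⟨x, hx⟩)) =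
        ∑ x : (Oᶜ : Set X), α x • L (c' x) := by
      refine Finset.sum_congr rfl fun x _ => ?_
      have hx : (x : X) ∉ O := x.2
      rw [dif_neg hx]
    rw [h1, h3] at hα
    have h4 := congrArg q hα
    rw [map_add, hq1, zero_add, map_sum, map_zero] at h4
    have h5 : ∑ x : (Oᶜ : Set X), α x • c' x = 0 := by
      rw [← h4]
      refine Finset.sum_congr rfl fun x _ => ?_
      rw [map_smul, hL1]
    have h6 := Fintype.linearIndependent_iff.1 hc1 (fun x => α x) h5
    have h7 : ∑ x : (Oᶜ : Set X), α x • L (c' x) = 0 :=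
      Finset.sum_eq_zero fun x _ => by rw [h6 x, zero_smul]
    rw [h7, add_zero] at hα
    have h8 : β (res O α) = 0 := by rw [hβ, hα, map_zero]
    have h9 : res O α = 0 := hβi (by rw [h8, map_zero])
    intro x
    by_cases hx : x ∈ O
    · exact congrFun h9 ⟨x, hx⟩
    · exact h6 ⟨x, hx⟩
  · intro h x
    by_cases hx : x ∈ O
    · have h1 : h • x ∈ O := hO h x hx
      beta_reduce
      rw [dif_pos hx, dif_pos h1, ← hτe]
      have h2 : pr k H X h (ext0 O (Pi.single ⟨x, hx⟩ 1)) =
          ext0 O (pr k H O h (Pi.single ⟨x, hx⟩ 1)) := (ext0_pr O hO h _).symm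
      rw [h2, pr_single]
      rfl
    · have h1 : h • x ∉ O := hO' h x hx
      beta_reduce
      rw [dif_neg hx, dif_neg h1, hL3]
      rfl
  · intro x
    beta_reduce
    by_cases hx : x ∈ O
    · rw [dif_pos hx]
      rcases hπτ with h | h
      · left; rw [h]
      · right; rw [h]
    · rw [dif_neg hx]
      exact hL2 _

/-- **Exchange theorem** (Krull–Schmidt for permutation modules of `p`-groups): for an
equivariant idempotent endomorphism `π` of a permutation module there is a permutation basis, with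
the same index set, adapted to `π`. -/
theorem adapted (hH : IsPGroup p H) : ∀ (n : ℕ) (X : Type u) [Fintype X] [MulAction H X],
    Fintype.card X = n → ∀ π : Module.End k (X → k), (∀ f, π (π f) = π f) →
    (∀ h f, π (pr k H X h f) = pr k H X h (π f)) →
    ∃ c : X → (X → k), LinearIndependent k c ∧
      (∀ (h : H) x, pr k H X h (c x) = c (h • x)) ∧ ∀ x, π (c x) = c x ∨ π (c x) = 0 := by
  intro n
  induction n using Nat.strong_induction_on with
  | _ n ih =>
    intro X _ _ hX π hπ hπe
    rcases isEmpty_or_nonempty X with hE | ⟨⟨x0⟩⟩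
    · exact ⟨fun x => 0, linearIndependent_empty_type, fun h x => (hE.false x).elim,
        fun x => (hE.false x).elim⟩
    let O : Set X := MulAction.orbit H x0
    have hO : ∀ (h : H), ∀ x ∈ O, h • x ∈ O := by
      rintro h _ ⟨g, rfl⟩
      exact ⟨h * g, by simp [mul_smul]⟩
    have hO' : ∀ (h : H), ∀ x ∈ Oᶜ, h • x ∈ Oᶜ := by
      intro h x hx hx'
      apply hx
      have := hO h⁻¹ _ hx'
      rwa [inv_smul_smul] at this
    have htrans : letI := subAct (H := H) O hO
        MulAction.IsPretransitive H O := by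
      let _ := subAct (H := H) O hO
      refine ⟨?_⟩
      rintro ⟨_, g, rfl⟩ ⟨_, g', rfl⟩
      refine ⟨g' * g⁻¹, Subtype.ext ?_⟩
      show (g' * g⁻¹) • (g • x0) = g' • x0
      rw [smul_smul, inv_mul_cancel_right]
    have hcard : Fintype.card (Oᶜ : Set X) < n := by
      rw [← hX]
      refine Fintype.card_subtype_lt (x := x0) ?_
      intro h
      exact h (MulAction.mem_orbit_self x0)
    let _ := subAct (H := H) Oᶜ hO'
    let _ := subAct (H := H) O hO
    have IH := ih _ hcard (Oᶜ : Set X) rfl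
    let β : Module.End k (O → k) := (res O).comp (π.comp (ext0 O))
    have hβe : ∀ h f, β (pr k H O h f) = pr k H O h (β f) := by
      intro h f
      show res O (π (ext0 O (pr k H O h f))) = pr k H O h (res O (π (ext0 O f)))
      have h1 : ext0 O (pr k H O h f) = pr k H X h (ext0 O f) := ext0_pr O hO h f
      rw [h1, hπe]
      rfl
    rcases inj_or_inj hH β hβe with h | h
    · exact step O hO hO' π π hπ hπe hπe (Or.inl hπ) h IH
    · refine step O hO hO' π (1 - π) hπ hπe ?_ (Or.inr ?_) ?_ IH
      · intro h f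
        rw [LinearMap.sub_apply, LinearMap.sub_apply, hπe, map_sub]
        rfl
      · intro f
        rw [LinearMap.sub_apply, map_sub, hπ, Module.End.one_apply, sub_self]
      · intro f g hfg
        apply h
        have h1 : ∀ f : O → k, res O ((1 - π : Module.End k (X → k)) (ext0 O f)) =
            (1 - β : Module.End k (O → k)) f := by
          intro f
          rw [LinearMap.sub_apply, LinearMap.sub_apply, map_sub, Module.End.one_apply,
            Module.End.one_apply, res_ext0]
          rfl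
        rw [← h1, ← h1]
        exact hfg

end Exchange

end Vale.P179.H875.Perm
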