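import Mathlib

/-!
# Higman's criterion in matrix form (P179, signature project, module S0c (i), (ii))
-/

set_option autoImplicit false

namespace Vale.P179.H875

open Finset

section Matrix

variable {k : Type*} [Field k] {E X : Type*} [Group E] [Fintype E]

/-- Higman's criterion, matrix form: a matrix on `X × X` invariant under the finite group `E`,
which vanishes at the pairs with a non-trivial stabiliser, is a trace from the trivial group. -/
theorem higman_matrix (act : E →* Equiv.Perm X) (M : X → X → k)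
    (hinv : ∀ (e : E) (a b : X), M (act e a) (act e b) = M a b)
    (hfree : ∀ e : E, e ≠ 1 → ∀ a b : X, act e a = a → act e b = b → M a b = 0) :
    ∃ T : X → X → k, ∀ a b, M a b = ∑ e : E, T (act e⁻¹ a) (act e⁻¹ b) := by
  classical
  let _ : MulAction E X := MulAction.compHom X act
  have hact : ∀ (e : E) (x : X), act e x = e • x := fun e x => rfl
  simp only [hact] at hinv hfree ⊢
  let q : X × X → Quotient (MulAction.orbitRel E (X × X)) := fun z => Quotient.mk _ z
  let r : X × X → X × X := fun z => (q z).out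
  have hr : ∀ z, ∃ e : E, e • z = r z := by
    intro z
    have h : (MulAction.orbitRel E (X × X)).r (r z) z := Quotient.exact (Quotient.out_eq (q z))
    obtain ⟨e, he⟩ := h
    exact ⟨e, he⟩
  have hrE : ∀ (e : E) z, r (e • z) = r z := by
    intro e z
    have h : q (e • z) = q z := Quotient.sound ⟨e, rfl⟩
    show (q (e • z)).out = (q z).out
    rw [h]
  refine ⟨fun a b => if r (a, b) = (a, b) then M a b else 0, fun a b => ?_⟩
  have h1 : ∀ e : E, (if r (e⁻¹ • a, e⁻¹ • b) = (e⁻¹ • a, e⁻¹ • b) then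
      M (e⁻¹ • a) (e⁻¹ • b) else 0) = if r (a, b) = e⁻¹ • (a, b) then M a b else 0 := by
    intro e
    have h2 : (e⁻¹ • a, e⁻¹ • b) = e⁻¹ • ((a, b) : X × X) := rfl
    rw [h2, hrE, hinv]
  simp only [h1]
  by_cases hM : M a b = 0
  · simp [hM]
  · obtain ⟨e₀, he₀⟩ := hr (a, b)
    have huniq : ∀ e : E, (r (a, b) = e⁻¹ • (a, b)) ↔ e = e₀⁻¹ := by
      intro e
      constructor
      · intro h
        by_contra hne
        have h3 : (e * e₀) • ((a, b) : X × X) = (a, b) := by
          rw [mul_smul, he₀, h, smul_inv_smul]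
        have h4 : e * e₀ ≠ 1 := fun h5 => hne (eq_inv_of_mul_eq_one_left h5)
        apply hM
        exact hfree (e * e₀) h4 a b (congrArg Prod.fst h3) (congrArg Prod.snd h3)
      · rintro rfl
        rw [inv_inv, he₀]
    simp only [huniq]
    simp

/-- A sum over a finite group as a sum over cosets. -/
theorem sum_cosets {V : Type*} [AddCommMonoid V] (D : Subgroup E) [Fintype D] [Fintype (E ⧸ D)]
    (F : E → V) : ∑ q : E ⧸ D, ∑ x : D, F (q.out * x) = ∑ e : E, F e := by
  classical
  rw [← Fintype.sum_prod_type' (f := fun (q : E ⧸ D) (x : D) => F (q.out * x))]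
  let eqv : (E ⧸ D) × D ≃ E :=
    { toFun := fun z => z.1.out * (z.2 : E)
      invFun := fun e => (QuotientGroup.mk e, ⟨(QuotientGroup.mk e : E ⧸ D).out⁻¹ * e, by
        rw [← QuotientGroup.eq]
        exact QuotientGroup.out_eq' _⟩)
      left_inv := ?_
      right_inv := ?_ }
  · exact Fintype.sum_equiv eqv _ _ (fun z => rfl)
  · rintro ⟨q, x⟩
    have h : (QuotientGroup.mk (q.out * (x : E)) : E ⧸ D) = q := by
      rw [QuotientGroup.mk_mul_of_mem _ x.2]
      exact QuotientGroup.out_eq' _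
    refine Prod.ext h (Subtype.ext ?_)
    show (QuotientGroup.mk (q.out * (x : E)) : E ⧸ D).out⁻¹ * (q.out * x) = x
    rw [h, inv_mul_cancel_left]
  · intro e
    show (QuotientGroup.mk e : E ⧸ D).out * ((QuotientGroup.mk e : E ⧸ D).out⁻¹ * e) = e
    rw [mul_inv_cancel_left]

/-- Raising the trace form to an overgroup of invertible index. -/
theorem trace_up {V : Type*} [AddCommGroup V] [Module k V] (D : Subgroup E) [Fintype D]
    (ρ : E →* Module.End k V) (φ θ : V →ₗ[k] V)
    (hφ : ∀ e v, φ (ρ e v) = ρ e (φ v))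
    (h : ∀ v, φ v = ∑ x : D, ρ x (θ (ρ (x : E)⁻¹ v)))
    (hidx : (D.index : k) ≠ 0) (v : V) :
    φ v = ∑ e : E, ρ e (((D.index : k)⁻¹ • θ) (ρ e⁻¹ v)) := by
  classical
  have hfin : Finite (E ⧸ D) := inferInstance
  let _ := Fintype.ofFinite (E ⧸ D)
  have h1 : ∀ q : E ⧸ D, φ v = ∑ x : D, ρ (q.out * x) (θ (ρ (q.out * x)⁻¹ v)) := by
    intro q
    have h2 : φ v = ρ q.out (φ (ρ (q.out)⁻¹ v)) := by
      rw [hφ, ← Module.End.mul_apply, ← map_mul, mul_inv_cancel, map_one, Module.End.one_apply]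
    rw [h2, h, map_sum]
    refine Finset.sum_congr rfl fun x _ => ?_
    rw [map_mul, Module.End.mul_apply, mul_inv_rev, map_mul, Module.End.mul_apply]
  have h3 : ∑ q : E ⧸ D, φ v = ∑ e : E, ρ e (θ (ρ e⁻¹ v)) := by
    rw [Finset.sum_congr rfl fun q _ => h1 q]
    exact sum_cosets D fun e => ρ e (θ (ρ e⁻¹ v))
  rw [Finset.sum_const, Finset.card_univ, ← Nat.card_eq_fintype_card] at h3
  have h4 : (D.index : k) • φ v = ∑ e : E, ρ e (θ (ρ e⁻¹ v)) := by
    rw [← h3, Nat.cast_smul_eq_nsmul]
    rfl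
  have h5 : φ v = (D.index : k)⁻¹ • ∑ e : E, ρ e (θ (ρ e⁻¹ v)) := by
    rw [← h4, inv_smul_smul₀ hidx]
  rw [h5, Finset.smul_sum]
  refine Finset.sum_congr rfl fun e _ => ?_
  simp

end Matrix

section GroupAlgebra

variable {k : Type*} [Field k] {G : Type*} [Group G]

/-- The permutation action `(x, y) • g = x g y⁻¹` of `D × D` on `G`. -/
def biAct (D : Subgroup G) : D × D →* Equiv.Perm G where
  toFun z :=
    { toFun := fun g => z.1 * g * (z.2 : G)⁻¹
      invFun := fun g => (z.1 : G)⁻¹ * g * z.2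
      left_inv := fun g => by group
      right_inv := fun g => by group }
  map_one' := by ext g; simp
  map_mul' z w := by ext g; simp [mul_assoc]

theorem coeff_bi (x y g : G) (a : MonoidAlgebra k G) :
    (MonoidAlgebra.single x 1 * a * MonoidAlgebra.single y 1).coeff g =
      a.coeff (x⁻¹ * g * y⁻¹) := by
  rw [MonoidAlgebra.coeff_mul_single_eq_coeff_mul (g * y⁻¹)
    (fun m' _ => by rw [eq_mul_inv_iff_mul_eq]),
    MonoidAlgebra.coeff_single_mul_eq_mul_coeff (x⁻¹ * (g * y⁻¹))
    (fun m' _ => by rw [eq_inv_mul_iff_mul_eq])]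
  simp [mul_assoc]

/-- The representation `(x, y) a = x a y⁻¹` of `N × N` on the group algebra. -/
noncomputable def biRep (k : Type*) [Field k] (N : Subgroup G) :
    N × N →* Module.End k (MonoidAlgebra k G) where
  toFun z :=
    { toFun := fun a => MonoidAlgebra.single (z.1 : G) 1 * a * MonoidAlgebra.single (z.2 : G)⁻¹ 1
      map_add' := fun a b => by rw [mul_add, add_mul]
      map_smul' := fun c a => by simp }
  map_one' := by
    refine LinearMap.ext fun a => ?_
    show MonoidAlgebra.single (1 : G) (1 : k) * a * MonoidAlgebra.single (1 : G)⁻¹ 1 = a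
    rw [inv_one, ← MonoidAlgebra.one_def, one_mul, mul_one]
  map_mul' z w := by
    refine LinearMap.ext fun a => ?_
    have h : ∀ x y : G, (MonoidAlgebra.single (x * y) (1 : k)) =
        MonoidAlgebra.single x 1 * MonoidAlgebra.single y 1 := by
      intro x y
      rw [MonoidAlgebra.single_mul_single, one_mul]
    show MonoidAlgebra.single ((z.1 : G) * w.1) (1 : k) * a *
        MonoidAlgebra.single ((z.2 : G) * w.2)⁻¹ 1 =
      MonoidAlgebra.single (z.1 : G) (1 : k) * (MonoidAlgebra.single (w.1 : G) (1 : k) * a *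
        MonoidAlgebra.single (w.2 : G)⁻¹ 1) * MonoidAlgebra.single (z.2 : G)⁻¹ 1
    rw [mul_inv_rev, h, h]
    simp only [mul_assoc]

theorem biRep_apply (N : Subgroup G) (x y : N) (a : MonoidAlgebra k G) :
    biRep k N (x, y) a =
      MonoidAlgebra.single (x : G) 1 * a * MonoidAlgebra.single (y : G)⁻¹ 1 := rfl

variable [Fintype G]

theorem eq_sum_coeff (a : MonoidAlgebra k G) :
    a = ∑ g : G, a.coeff g • MonoidAlgebra.single g 1 := by
  classical
  ext h
  rw [MonoidAlgebra.coeff_sum, Finsupp.finsetSum_apply, Finset.sum_eq_single h]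
  · simp
  · intro g _ hg
    simp [hg]
  · intro h'; exact absurd (Finset.mem_univ _) h'

/-- The linear map with a given matrix. -/
noncomputable def ofMat (T : G → G → k) : MonoidAlgebra k G →ₗ[k] MonoidAlgebra k G where
  toFun a := ∑ g : G, ∑ h : G, (a.coeff g * T g h) • MonoidAlgebra.single h 1
  map_add' a b := by
    simp only [MonoidAlgebra.coeff_add, Finsupp.add_apply, add_mul, add_smul,
      Finset.sum_add_distrib]
  map_smul' c a := by
    simp only [MonoidAlgebra.coeff_smul, Finsupp.smul_apply, smul_eq_mul, mul_assoc, mul_smul,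
      RingHom.id_apply, Finset.smul_sum]

theorem coeff_ofMat (T : G → G → k) (a : MonoidAlgebra k G) (h : G) :
    (ofMat T a).coeff h = ∑ g : G, a.coeff g * T g h := by
  classical
  show (∑ g : G, ∑ h : G, (a.coeff g * T g h) • MonoidAlgebra.single h (1 : k)).coeff h = _
  rw [MonoidAlgebra.coeff_sum, Finsupp.finsetSum_apply]
  refine Finset.sum_congr rfl fun g _ => ?_
  rw [MonoidAlgebra.coeff_sum, Finsupp.finsetSum_apply, Finset.sum_eq_single h]
  · simp
  · intro g _ hg
    simp [hg]
  · intro h'; exact absurd (Finset.mem_univ _) h'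

theorem coeff_map (φ : MonoidAlgebra k G →ₗ[k] MonoidAlgebra k G) (a : MonoidAlgebra k G) (h : G) :
    (φ a).coeff h = ∑ g : G, a.coeff g * (φ (MonoidAlgebra.single g 1)).coeff h := by
  conv_lhs => rw [eq_sum_coeff a]
  rw [map_sum, MonoidAlgebra.coeff_sum, Finsupp.finsetSum_apply]
  refine Finset.sum_congr rfl fun g _ => ?_
  rw [map_smul, MonoidAlgebra.coeff_smul, Finsupp.smul_apply, smul_eq_mul]

/-- Trace form over `D × D` from the vanishing of the entries with non-trivial stabiliser. -/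
theorem exists_trace (D : Subgroup G) [Fintype D]
    (φ : MonoidAlgebra k G →ₗ[k] MonoidAlgebra k G)
    (hφ : ∀ (x y : D) (a : MonoidAlgebra k G),
      φ (MonoidAlgebra.single (x : G) 1 * a * MonoidAlgebra.single (y : G) 1) =
        MonoidAlgebra.single (x : G) 1 * φ a * MonoidAlgebra.single (y : G) 1)
    (h0 : ∀ x y : D, (x ≠ 1 ∨ y ≠ 1) → ∀ g h : G, (x : G) * g = g * y → (x : G) * h = h * y →
      (φ (MonoidAlgebra.single g 1)).coeff h = 0) :
    ∃ θ : MonoidAlgebra k G →ₗ[k] MonoidAlgebra k G, ∀ a,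
      φ a = ∑ z : D × D, MonoidAlgebra.single (z.1 : G) 1 *
        θ (MonoidAlgebra.single (z.1 : G)⁻¹ 1 * a * MonoidAlgebra.single (z.2 : G) 1) *
          MonoidAlgebra.single (z.2 : G)⁻¹ 1 := by
  classical
  obtain ⟨T, hT⟩ := higman_matrix (biAct D)
    (fun g h => (φ (MonoidAlgebra.single g 1)).coeff h)
    (by
      rintro ⟨x, y⟩ g h
      show (φ (MonoidAlgebra.single (x * g * (y : G)⁻¹) 1)).coeff (x * h * (y : G)⁻¹) = _
      have h1 := hφ x y⁻¹ (MonoidAlgebra.single g 1)
      have h2 : ((y⁻¹ : D) : G) = (y : G)⁻¹ := rfl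
      rw [h2, MonoidAlgebra.single_mul_single, MonoidAlgebra.single_mul_single, mul_one,
        mul_one] at h1
      rw [h1, coeff_bi]
      congr 1
      group)
    (by
      rintro ⟨x, y⟩ hxy g h hg hh
      refine h0 x y ?_ g h ?_ ?_
      · by_contra hc
        push Not at hc
        exact hxy (Prod.ext hc.1 hc.2)
      · have : (x : G) * g * (y : G)⁻¹ = g := hg
        rw [mul_inv_eq_iff_eq_mul] at this
        exact this
      · have : (x : G) * h * (y : G)⁻¹ = h := hh
        rw [mul_inv_eq_iff_eq_mul] at this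
        exact this)
  refine ⟨ofMat T, fun a => ?_⟩
  ext h
  rw [coeff_map, MonoidAlgebra.coeff_sum, Finsupp.finsetSum_apply]
  have h1 : ∀ z : D × D, (MonoidAlgebra.single (z.1 : G) 1 *
        ofMat T (MonoidAlgebra.single (z.1 : G)⁻¹ 1 * a * MonoidAlgebra.single (z.2 : G) 1) *
          MonoidAlgebra.single (z.2 : G)⁻¹ 1).coeff h =
      ∑ g : G, a.coeff g * T ((z.1 : G)⁻¹ * g * z.2) ((z.1 : G)⁻¹ * h * z.2) := by
    intro z
    rw [coeff_bi, coeff_ofMat]
    refine Finset.sum_equiv (biAct D z) (by simp) fun g _ => ?_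
    rw [coeff_bi]
    show a.coeff _ * _ = a.coeff (z.1 * g * (z.2 : G)⁻¹) * T ((z.1 : G)⁻¹ * (z.1 * g *
      (z.2 : G)⁻¹) * z.2) _
    congr 2 <;> group
  rw [Finset.sum_congr rfl fun z _ => h1 z, Finset.sum_comm]
  refine Finset.sum_congr rfl fun g _ => ?_
  rw [← Finset.mul_sum, hT g h]
  congr 1
  refine Finset.sum_congr rfl fun z _ => ?_
  have h2 : ∀ w : G, biAct D z⁻¹ w = (z.1 : G)⁻¹ * w * z.2 := by
    intro w
    show ((z⁻¹ : D × D).1 : G) * w * ((z⁻¹ : D × D).2 : G)⁻¹ = _
    simp
  rw [h2, h2]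

/-- Trace form over `N × N`, `D ≤ N` of invertible index. -/
theorem exists_trace_normalizer (D N : Subgroup G) (hDN : D ≤ N) [Fintype N]
    (hidx : ((D.subgroupOf N).index : k) ≠ 0)
    (φ : MonoidAlgebra k G →ₗ[k] MonoidAlgebra k G)
    (hφ : ∀ x ∈ N, ∀ y ∈ N, ∀ a : MonoidAlgebra k G,
      φ (MonoidAlgebra.single x 1 * a * MonoidAlgebra.single y 1) =
        MonoidAlgebra.single x 1 * φ a * MonoidAlgebra.single y 1)
    (h0 : ∀ x ∈ D, ∀ y ∈ D, (x ≠ 1 ∨ y ≠ 1) → ∀ g h : G, x * g = g * y → x * h = h * y →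
      (φ (MonoidAlgebra.single g 1)).coeff h = 0) :
    ∃ θ : MonoidAlgebra k G →ₗ[k] MonoidAlgebra k G, ∀ a,
      φ a = ∑ x : N, ∑ y : N, MonoidAlgebra.single (x : G) 1 *
        θ (MonoidAlgebra.single (x : G)⁻¹ 1 * a * MonoidAlgebra.single (y : G) 1) *
          MonoidAlgebra.single (y : G)⁻¹ 1 := by
  classical
  have : Fintype D := Fintype.ofFinite D
  obtain ⟨θ, hθ⟩ := exists_trace D φ (fun x y a => hφ x (hDN x.2) y (hDN y.2) a)
    (fun x y hxy g h hg hh => h0 x x.2 y y.2
      (by
        rcases hxy with h | h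
        · left; exact fun h' => h (Subtype.ext h')
        · right; exact fun h' => h (Subtype.ext h')) g h hg hh)
  let D' : Subgroup (N × N) := (D.subgroupOf N).prod (D.subgroupOf N)
  have hD' : (D'.index : k) ≠ 0 := by
    rw [Subgroup.index_prod]
    push_cast
    exact mul_ne_zero hidx hidx
  let eD : D × D ≃ D' :=
    { toFun := fun z => ⟨(⟨z.1, hDN z.1.2⟩, ⟨z.2, hDN z.2.2⟩), by
        rw [Subgroup.mem_prod, Subgroup.mem_subgroupOf, Subgroup.mem_subgroupOf]
        exact ⟨z.1.2, z.2.2⟩⟩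
      invFun := fun z => (⟨z.1.1, (Subgroup.mem_prod.1 z.2).1⟩, ⟨z.1.2, (Subgroup.mem_prod.1 z.2).2⟩)
      left_inv := fun z => rfl
      right_inv := fun z => rfl }
  refine ⟨(D'.index : k)⁻¹ • θ, fun a => ?_⟩
  rw [← Fintype.sum_prod_type'
    (f := fun x y : N => MonoidAlgebra.single (x : G) 1 *
        ((D'.index : k)⁻¹ • θ) (MonoidAlgebra.single (x : G)⁻¹ 1 * a *
          MonoidAlgebra.single (y : G) 1) * MonoidAlgebra.single (y : G)⁻¹ 1)]
  have h1 := trace_up D' (biRep k N) φ θ
    (by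
      rintro ⟨x, y⟩ v
      rw [biRep_apply, biRep_apply]
      exact hφ x x.2 _ (N.inv_mem y.2) v)
    (by
      intro v
      rw [hθ v]
      refine Finset.sum_equiv eD (by simp) fun z _ => ?_
      show _ = biRep k N (⟨z.1, hDN z.1.2⟩, ⟨z.2, hDN z.2.2⟩)
        (θ (biRep k N (⟨z.1, hDN z.1.2⟩, ⟨z.2, hDN z.2.2⟩)⁻¹ v))
      rw [biRep_apply, Prod.inv_mk, biRep_apply]
      simp)
    hD' a
  rw [h1]
  refine Finset.sum_congr rfl fun z _ => ?_
  obtain ⟨x, y⟩ := z
  rw [biRep_apply, Prod.inv_mk, biRep_apply]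
  simp

end GroupAlgebra

section Res

variable {k : Type*} [Field k] {G : Type*} [Group G]

open scoped Classical in
/-- Restriction of the coefficients to a subgroup, as an endomorphism of the group algebra. -/
noncomputable def resN (k : Type*) [Field k] (N : Subgroup G) :
    MonoidAlgebra k G →ₗ[k] MonoidAlgebra k G where
  toFun a := MonoidAlgebra.ofCoeff (a.coeff.filter (· ∈ N))
  map_add' a b := by
    ext g
    simp only [MonoidAlgebra.coeff_add, Finsupp.filter_add]
  map_smul' c a := by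
    ext g
    simp only [MonoidAlgebra.coeff_smul, Finsupp.filter_smul, RingHom.id_apply]

open scoped Classical in
theorem coeff_resN (N : Subgroup G) (a : MonoidAlgebra k G) (g : G) :
    (resN k N a).coeff g = if g ∈ N then a.coeff g else 0 := by
  show (a.coeff.filter (· ∈ N)) g = _
  rw [Finsupp.filter_apply]

theorem resN_mul_left (N : Subgroup G) {n : G} (hn : n ∈ N) (a : MonoidAlgebra k G) :
    resN k N (MonoidAlgebra.single n 1 * a) = MonoidAlgebra.single n 1 * resN k N a := by
  classical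
  ext g
  have h := fun b : MonoidAlgebra k G => coeff_bi n 1 g b
  simp only [← MonoidAlgebra.one_def, mul_one, inv_one] at h
  rw [coeff_resN, h, h, coeff_resN]
  have h1 : n⁻¹ * g ∈ N ↔ g ∈ N := N.mul_mem_cancel_left (N.inv_mem hn)
  simp only [h1]

theorem resN_mul_right (N : Subgroup G) {n : G} (hn : n ∈ N) (a : MonoidAlgebra k G) :
    resN k N (a * MonoidAlgebra.single n 1) = resN k N a * MonoidAlgebra.single n 1 := by
  classical
  ext g
  have h := fun b : MonoidAlgebra k G => coeff_bi 1 n g b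
  simp only [← MonoidAlgebra.one_def, one_mul, inv_one] at h
  rw [coeff_resN, h, h, coeff_resN]
  have h1 : g * n⁻¹ ∈ N ↔ g ∈ N := N.mul_mem_cancel_right (N.inv_mem hn)
  simp only [h1]

theorem resN_single (N : Subgroup G) {n : G} (hn : n ∈ N) (r : k) :
    resN k N (MonoidAlgebra.single n r) = MonoidAlgebra.single n r := by
  classical
  ext g
  rw [coeff_resN]
  split_ifs with h
  · rfl
  · rw [MonoidAlgebra.coeff_single, Finsupp.single_apply, if_neg]
    rintro rfl
    exact h hn

theorem resN_resN (N : Subgroup G) (a : MonoidAlgebra k G) :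
    resN k N (resN k N a) = resN k N a := by
  classical
  ext g
  rw [coeff_resN, coeff_resN]
  split_ifs <;> rfl

end Res

end Vale.P179.H875
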