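import Vale.Agent.P179.H875.S0cData
import Vale.Agent.P179.Sgn.Defs

/-!
# `KData` from the idempotent `f` (module S0c of the signature project)
-/

set_option autoImplicit false

namespace Vale.P179.H875

open Finset Vale.P179.Sgn Vale.P179.H445
open scoped TensorProduct

section Sep

/-- from the universal property to the tensor statement -/
theorem sep_tensor {k A B Γ ι : Type} [Field k] [Ring A] [Algebra k A] [Ring B] [Algebra k B]
    [Fintype ι] (j : A →ₐ[k] B) (g : Γ → A) (s t : ι → B)
    (h : ∀ (M : Type) [AddCommGroup M] [Module k M] (β : B →ₗ[k] B →ₗ[k] M),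
        (∀ (x y : B) (γ : Γ), β (x * j (g γ)) y = β x (j (g γ) * y)) →
        ∀ b : B, ∑ i, β (b * s i) (t i) = ∑ i, β (s i) (t i * b)) (b : B) :
    (∑ i, (b * s i) ⊗ₜ[k] t i) - (∑ i, s i ⊗ₜ[k] (t i * b)) ∈
    Submodule.span k {z : B ⊗[k] B | ∃ (x y : B) (h : A),
      z = (x * j h) ⊗ₜ[k] y - x ⊗ₜ[k] (j h * y)} := by
  let S : Submodule k (B ⊗[k] B) := Submodule.span k {z : B ⊗[k] B |
      ∃ (x y : B) (h : A), z = (x * j h) ⊗ₜ[k] y - x ⊗ₜ[k] (j h * y)}
  let β : B →ₗ[k] B →ₗ[k] ((B ⊗[k] B) ⧸ S) := (TensorProduct.mk k B B).compr₂ S.mkQ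
  have hβ : ∀ x y, β x y = S.mkQ (x ⊗ₜ[k] y) := fun x y => rfl
  have h1 := h _ β (by
      intro x y γ
      rw [hβ, hβ, ← sub_eq_zero, ← map_sub, Submodule.mkQ_apply, Submodule.Quotient.mk_eq_zero]
      exact Submodule.subset_span ⟨x, y, g γ, rfl⟩) b
  rw [← Submodule.Quotient.mk_eq_zero S, ← Submodule.mkQ_apply, map_sub, map_sum,
      map_sum, sub_eq_zero]
  exact h1

end Sep

section Pack

variable {k : Type} [Field k] {G : Type} [Group G] [Fintype G] {D N K : Subgroup G}
  {b0 f c : MonoidAlgebra k G} {Γ : Type} [Group Γ] [Fintype Γ]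

/-- The relative data for the corner ring. -/
theorem kdata_exists (hI : CInput k D N K b0 f c) (hB : BInput k b0) (q : N →* Γ)
    (hq : Function.Surjective q) (hker : ∀ n : N, q n = 1 ↔ (n : G) ∈ K)
    (hK0 : (Nat.card K : k) ≠ 0) (hKN : K ≤ N) (hDN : D ≤ N)
    (hidx : ((D.subgroupOf N).index : k) ≠ 0) (hidxN : (N.index : k) ≠ 0)
    (hcard : (Fintype.card Γ : k) = 0) :
    ∃ 𝒟 : KData k (MonoidAlgebra k Γ) (CR hI) Γ, 𝒟.γ = MonoidAlgebra.of k Γ := by
  classical
  obtain ⟨θ, hθ⟩ := exists_theta hI q hq hker hKN hDN hidx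
  obtain ⟨s, t, hst, hsep⟩ := exists_sep hI q hq hker hB hidxN
  let eqv : Fin (Fintype.card (G ⧸ N)) ≃ G ⧸ N := (Fintype.equivFin (G ⧸ N)).symm
  have hof : ∀ x : Γ, iota hI q hq hker (MonoidAlgebra.of k Γ x) = iotaG hI q hq hker x := by
    intro x
    rw [MonoidAlgebra.of_apply]
    exact iota_sg hI q hq hker x
  refine ⟨{ γ := MonoidAlgebra.of k Γ
            aug := MonoidAlgebra.lift k k Γ (1 : Γ →* k)
            ι := iota hI q hq hker
            ρ := rho hI q
            θ := θ
            m := Fintype.card (G ⧸ N)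
            s := fun i => s (eqv i)
            t := fun i => t (eqv i)
            τ := tau hI
            span := ?_
            augγ := ?_
            nz := ?_
            card0 := hcard
            rel := ⟨rho_iota hI q hq hker hK0 hKN, rho_iota_mul hI q hq hker,
              rho_mul_iota hI q hq hker, ?_⟩
            st := ?_
            sep := ?_
            tc := tau_comm hI
            nd := tau_nondeg hI
            tρ := tau_iota_rho hI q hq hker hK0 hKN }, rfl⟩
  · rw [eq_top_iff]
    intro a _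
    rw [eq_sum_coeff a]
    refine Submodule.sum_mem _ fun g _ => Submodule.smul_mem _ _ (Submodule.subset_span ⟨g, ?_⟩)
    rw [MonoidAlgebra.of_apply]
  · intro g
    rw [MonoidAlgebra.of_apply, MonoidAlgebra.lift_single]
    simp
  · intro h
    have h1 := congrArg (fun a : MonoidAlgebra k Γ => a.coeff 1) h
    simp only [MonoidAlgebra.coeff_sum, Finsupp.finsetSum_apply, MonoidAlgebra.of_apply,
      MonoidAlgebra.coeff_zero, Finsupp.zero_apply] at h1
    rw [Finset.sum_eq_single 1] at h1
    · simp at h1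
    · intro g _ hg
      simp [hg]
    · intro h'; exact absurd (Finset.mem_univ _) h'
  · intro b
    simp only [hof]
    exact hθ b
  · rw [← hst]
    exact Fintype.sum_equiv eqv (fun i => s (eqv i) * t (eqv i)) (fun i => s i * t i)
      fun i => rfl
  · refine sep_tensor (iota hI q hq hker) (MonoidAlgebra.of k Γ) (fun i => s (eqv i))
      (fun i => t (eqv i)) fun M _ _ β hβ b => ?_
    have h1 := hsep M β (fun x y γ => by rw [← hof]; exact hβ x y γ) b
    have h2 : (∑ i, β (b * s (eqv i)) (t (eqv i))) = ∑ i, β (b * s i) (t i) :=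
      Fintype.sum_equiv eqv (fun i => β (b * s (eqv i)) (t (eqv i))) (fun i => β (b * s i) (t i))
        fun i => rfl
    have h3 : (∑ i, β (s (eqv i)) (t (eqv i) * b)) = ∑ i, β (s i) (t i * b) :=
      Fintype.sum_equiv eqv (fun i => β (s (eqv i)) (t (eqv i) * b)) (fun i => β (s i) (t i * b))
        fun i => rfl
    rw [h2, h3, h1]

/-- every central element of the corner is a unit or nilpotent -/
theorem zloc (hI : CInput k D N K b0 f c) (hB : BInput k b0) (hidxN : (N.index : k) ≠ 0) :
    ZLoc (CR hI) := by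
  have hfin : FiniteDimensional k (MonoidAlgebra k G) :=
    Module.Finite.equiv (MonoidAlgebra.coeffLinearEquiv k (M := G) (S := k)).symm
  intro z hz
  exact (central_nilpotent_or_unit k (fun e he hid => corner_local hI hB hidxN e he hid) z
    (Subring.mem_center_iff.2 fun b => (hz b).symm)).symm

theorem nontrivial_CR (hI : CInput k D N K b0 f c) : Nontrivial (CR hI) := by
  refine ⟨⟨0, 1, fun h => ?_⟩⟩
  have h1 : f = 0 := (congrArg (cval hI.idem) h).symm
  have h2 := hI.aug_f
  rw [h1] at h2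
  simp at h2

theorem finiteDimensional_CR (hI : CInput k D N K b0 f c) : FiniteDimensional k (CR hI) := by
  have hfin : FiniteDimensional k (MonoidAlgebra k G) :=
    Module.Finite.equiv (MonoidAlgebra.coeffLinearEquiv k (M := G) (S := k)).symm
  exact cornerFinite _

/-- From module S0a' and the abstract theorem: the lower bound for the corner. -/
theorem le_lB (hL : LOWER) (p : ℕ) [Fact p.Prime] [IsAlgClosed k] [CharP k p]
    (hI : CInput k D N K b0 f c) (hB : BInput k b0) (q : N →* Γ)
    (hq : Function.Surjective q) (hker : ∀ n : N, q n = 1 ↔ (n : G) ∈ K)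
    (hK0 : (Nat.card K : k) ≠ 0) (hKN : K ≤ N) (hDN : D ≤ N)
    (hidx : ((D.subgroupOf N).index : k) ≠ 0) (hidxN : (N.index : k) ≠ 0)
    (hcard : (Fintype.card Γ : k) = 0) (e : ℕ) [NeZero e] (hfree : FreeCyc p Γ e) :
    e ≤ lB k (CR hI) := by
  obtain ⟨𝒟, h𝒟⟩ := kdata_exists hI hB q hq hker hK0 hKN hDN hidx hidxN hcard
  have h1 := nontrivial_CR hI
  have h2 := finiteDimensional_CR hI
  exact hL p k (CR hI) Γ 𝒟 e h𝒟 hfree (zloc hI hB hidxN)

end Pack

end Vale.P179.H875
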